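import Vale.Agent.P283.H108.LocBertini

/-!
The theorem of Bertini type for a log canonical pair with a monomial ideal, over an open subset.
-/

set_option linter.all false

namespace Vale.Agent.P283.H646L

open MvPolynomial Finset
open Vale.Agent.P283.Z647 Vale.Agent.P283.H108
open Vale.Agent.P283.H647 (ResForm HypData order_exists order_unique ov_monoT ov_lt_of gen_coeffs
  cder cder_sum cder_monomial poly coeff_poly exists_form ov_algebraMap)

variable {e : ℕ} {L : Type} [Field L] [Algebra ℂ L]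
  {y : Fin (e + 2) → L} {f : MvPolynomial (Fin (e + 2)) ℂ}
  {g : Fin 1 → MvPolynomial (Fin (e + 2)) ℂ} {S : MvPolynomial (Fin (e + 2)) ℂ}

/-- The theorem of Bertini type: here `g 0` is the equation of the boundary, and the pair is log
canonical where the `σ i` are regular. -/
theorem bertiniX (H : HypData y f) {D' : Fin (e + 1) → Derivation ℂ L L} {h : L}
    (R : ResForm y f D' h) (hg : ∀ i, aeval y (g i) ≠ 0) {q : ℕ}
    {C : (Fin (e + 2) → ℤ) → Prop} {Ψ : (Fin (e + 2) → ℤ) → ℤ}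
    {t t' : ℕ} {gx : Fin t' → MvPolynomial (Fin (e + 2)) ℂ} {σ : Fin t → L}
    (hσ : ∀ i, Fixes y gx (σ i))
    (hC : ∀ (β : ℕ) (a a' : Fin (e + 2) → ℤ), 0 < β → (∀ k, (β : ℤ) * a' k = a k) → C a → C a')
    (hΨ : ∀ (β : ℕ) (a a' : Fin (e + 2) → ℤ), 0 < β → (∀ k, (β : ℤ) * a' k = a k) →
      Ψ a = β * Ψ a') (hΨ0 : Ψ 0 = 0)
    (hlc : ∀ (w : AddValuation L (WithTop ℤ)) (m : ℤ), Q.IsDivisorial (e + 1) w →
      C (wts w y) → (∀ i, 0 ≤ w (σ i)) → Q.FormOrder w D' m →
      ov w (aeval y (g 0)) ≤ q * (1 + m - ov w h) + Ψ (wts w y))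
    (hS0 : S ≠ 0) (hgen : GenCoeffX f g gx S)
    {w : AddValuation L (WithTop ℤ)} (hw : Q.IsDivisorial (e + 1) w)
    (hcone : C (wts w y)) (hwσ : ∀ i, 0 ≤ w (σ i)) {m : ℤ} (hm : Q.FormOrder w D' m) :
    ov w (aeval y (g 0)) + q * (ov w (aeval y S) - minWt S (wts w y)) ≤
      q * (1 + m - ov w h) + Ψ (wts w y) := by
  classical
  haveI := H.ess
  have hxS := hgen.gen.aeval_ne H hS0
  have hg0 : ∀ i, g i ≠ 0 := fun i h0 => hg i (by rw [h0, map_zero])
  have hSl := ov_lower hw.const H.x0 hxS (isMinZ_minWt hS0 (wts w y))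
  have hqZ : (0 : ℤ) ≤ q := by positivity
  by_cases hex : ov w (aeval y S) = minWt S (wts w y)
  · rw [hex, sub_self, mul_zero, add_zero]
    exact hlc w m hw hcone hwσ hm
  have hpos : 0 < ov w (aeval y S) - minWt S (wts w y) := by
    have := lt_of_le_of_ne hSl (Ne.symm hex)
    omega
  set b := wts w y with hbdef
  have hb : ∀ j, w (y j) = (b j : WithTop ℤ) := fun j => (coe_ov w (H.x0 j)).symm
  obtain ⟨⟨e₀, he₀, he₀w⟩, hmin⟩ := isMinZ_minWt hS0 b
  obtain ⟨δ, hδf, hδg, hδx, hδ1, hδS⟩ := hgen e₀ he₀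
  set c := S.coeff e₀ with hcdef
  -- the endomorphism of `ℂ`
  let F : Finset ℂ := (f.support.image fun α => f.coeff α) ∪
    ((Finset.univ.biUnion fun i => (g i).support.image fun α => (g i).coeff α) ∪
    (((S.support.erase e₀).image fun α => S.coeff α) ∪
    (Finset.univ.biUnion fun i => (gx i).support.image fun α => (gx i).coeff α)))
  obtain ⟨ι₀, hι₀, hcι⟩ := exists_endo F c δ (by
    intro a ha
    simp only [F, Finset.mem_union, Finset.mem_image, Finset.mem_biUnion, Finset.mem_univ,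
      true_and] at ha
    rcases ha with ⟨α, -, rfl⟩ | ⟨i, α, -, rfl⟩ | ⟨α, hα, rfl⟩ | ⟨i, α, -, rfl⟩
    · exact hδf α
    · exact hδg i α
    · exact hδS α (Finset.ne_of_mem_erase hα)
    · exact hδx i α) (by rw [hδ1]; exact one_ne_zero)
  have hff : map ι₀ f = f := by
    apply map_eq_self
    intro α
    by_cases hα : α ∈ f.support
    · exact hι₀ _ (Finset.mem_union_left _ (Finset.mem_image_of_mem _ hα))
    · rw [notMem_support_iff.1 hα, map_zero]
  have hgf : ∀ i, map ι₀ (g i) = g i := by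
    intro i
    apply map_eq_self
    intro α
    by_cases hα : α ∈ (g i).support
    · exact hι₀ _ (Finset.mem_union_right _ (Finset.mem_union_left _ (Finset.mem_biUnion.2
        ⟨i, Finset.mem_univ _, Finset.mem_image_of_mem _ hα⟩)))
    · rw [notMem_support_iff.1 hα, map_zero]
  have hxf : ∀ i, map ι₀ (gx i) = gx i := by
    intro i
    apply map_eq_self
    intro α
    by_cases hα : α ∈ (gx i).support
    · exact hι₀ _ (Finset.mem_union_right _ (Finset.mem_union_right _ (Finset.mem_union_right _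
        (Finset.mem_biUnion.2 ⟨i, Finset.mem_univ _, Finset.mem_image_of_mem _ hα⟩))))
    · rw [notMem_support_iff.1 hα, map_zero]
  set S₁ := S - monomial e₀ c with hS₁
  have hS₁c : ∀ α, S₁.coeff α = if α = e₀ then 0 else S.coeff α := by
    intro α
    rw [hS₁, coeff_sub, coeff_monomial]
    by_cases hα : α = e₀
    · subst hα; rw [if_pos rfl, if_pos rfl, sub_self]
    · rw [if_neg (Ne.symm hα), if_neg hα, sub_zero]
  have hSf : map ι₀ S₁ = S₁ := by
    apply map_eq_self
    intro α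
    rw [hS₁c]
    split_ifs with hα
    · exact map_zero _
    · by_cases hαS : α ∈ S.support
      · exact hι₀ _ (Finset.mem_union_right _ (Finset.mem_union_right _
          (Finset.mem_union_left _ (Finset.mem_image_of_mem _ (Finset.mem_erase.2 ⟨hα, hαS⟩)))))
      · rw [notMem_support_iff.1 hαS, map_zero]
  obtain ⟨ι, hι⟩ := exists_semi H hff
  have hιy : ∀ k, ι (y k) = y k := semi_y hι
  -- the function `x`
  set Y := ∏ k, y k ^ e₀ k with hY
  have hY0 : Y ≠ 0 := Finset.prod_ne_zero_iff.2 fun k _ => pow_ne_zero _ (H.x0 k)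
  have hYι : ι Y = Y := by
    rw [hY, map_prod]
    exact Finset.prod_congr rfl fun k _ => by rw [map_pow, hιy]
  set x := - aeval y S₁ / Y with hx
  have hxι : ι x = x := by rw [hx, map_div₀, map_neg, semi_fix hι hSf, hYι]
  have hSx : aeval y S = Y * (algebraMap ℂ L c - ι x) := by
    have h1 : S = S₁ + monomial e₀ c := by rw [hS₁]; ring
    have h2 : aeval y (monomial e₀ c) = algebraMap ℂ L c * Y := by
      rw [aeval_monomial, Finsupp.prod_fintype _ _ (by simp)]
    conv_lhs => rw [h1]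
    rw [map_add, h2, hxι, hx]
    field_simp
    ring
  have hYw : ov w Y = minWt S b := by
    apply ov_eq_of
    rw [hY, val_monoZ w hw.const y b hb, he₀w]
  have hcx0 : algebraMap ℂ L c - ι x ≠ 0 := by
    intro h0
    rw [h0, mul_zero] at hSx
    exact hxS hSx
  have hcxv : ov w (algebraMap ℂ L c - ι x) = ov w (aeval y S) - minWt S b := by
    rw [hSx, ov_mul w hY0 hcx0, hYw]; ring
  have hcx : 0 < w (algebraMap ℂ L c - ι x) := by
    rw [pos_iff w hcx0, hcxv]; exact hpos
  by_cases htriv : ∃ z : L, z ≠ 0 ∧ ov (w.comap ι) z ≠ 0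
  · -- the main case
    obtain ⟨v', β, hβ0, hn, hβ'⟩ := exists_normalized (w.comap ι) htriv
    have hβ : ∀ z, w (ι z) = β • v' z := hβ'
    have hβZ : (0 : ℤ) < β := by exact_mod_cast hβ0
    have hc' : ∀ c : ℂ, c ≠ 0 → v' (algebraMap ℂ L c) = 0 := by
      intro c hc
      have h0 : algebraMap ℂ L c ≠ 0 := (map_ne_zero _).2 hc
      have h1 : ov w (ι (algebraMap ℂ L c)) = 0 := by
        rw [semi_C hι]
        exact ov_eq_of w (by rw [hw.const _ ((map_ne_zero ι₀).2 hc)]; rfl)
      rw [ov_comap_mul hβ h0] at h1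
      rw [eq_zero_iff v' h0]
      rcases mul_eq_zero.1 h1 with h | h
      · exact absurd h hβZ.ne'
      · exact h
    have hxv : 0 ≤ v' x := by
      by_cases h0 : x = 0
      · rw [h0, AddValuation.map_zero]; exact le_top
      rw [nonneg_iff v' h0]
      have h1 : 0 ≤ w x := by
        have h2 : (minWt S b : WithTop ℤ) ≤ w (aeval y S₁) := by
          apply val_lowerZ w hw.const y b hb
          intro α hα
          rw [mem_support_iff, hS₁c] at hα
          by_cases hαe : α = e₀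
          · rw [if_pos hαe] at hα; exact absurd rfl hα
          · rw [if_neg hαe] at hα
            exact hmin α (mem_support_iff.2 hα)
        have h3 : aeval y S₁ ≠ 0 := by
          intro h4
          apply h0
          rw [hx, h4, neg_zero, zero_div]
        rw [nonneg_iff w h0, hx, ov_div w (neg_ne_zero.2 h3) hY0, hYw]
        have h4 : ov w (-aeval y S₁) = ov w (aeval y S₁) := by
          apply ov_eq_of
          rw [AddValuation.map_neg, coe_ov w h3]
        rw [h4]
        rw [← coe_ov w h3] at h2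
        have h5 : minWt S b ≤ ov w (aeval y S₁) := by exact_mod_cast h2
        omega
      rw [← hxι, nonneg_iff w ((map_ne_zero ι).2 h0), ov_comap_mul hβ h0] at h1
      exact nonneg_of_mul_nonneg_right h1 hβZ
    obtain ⟨m', hm'⟩ := restr_order hι H hff R hm hβ0 hβ
    obtain ⟨hdiv, hkey⟩ := restr_key hι H hff R hw hm hβ0 hβ hn hc' hm' hcι hxv hcx
    -- the weights
    have hwt : ∀ k, (β : ℤ) * wts v' y k = b k := by
      intro k
      have h1 := ov_comap_mul hβ (H.x0 k)
      rw [hιy k] at h1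
      exact h1.symm
    have hcone' : C (wts v' y) := hC β b (wts v' y) hβ0 hwt hcone
    have hv'σ : ∀ i, 0 ≤ v' (σ i) := by
      intro i
      have h1 := hβ (σ i)
      rw [hσ i ι₀ ι hι hxf] at h1
      have h2 := hwσ i
      rw [h1] at h2
      exact nonneg_of_nsmul hβ0 h2
    have h1 := hlc v' m' hdiv hcone' hv'σ hm'
    have h2 := mul_le_mul_of_nonneg_left h1 hβZ.le
    have h3 : (β : ℤ) * ov v' (aeval y (g 0)) = ov w (aeval y (g 0)) := by
      have h4 := ov_comap_mul hβ (hg 0)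
      rw [semi_fix hι (hgf 0)] at h4
      exact h4.symm
    rw [h3] at h2
    rw [hcxv] at hkey
    have h6 := mul_le_mul_of_nonneg_left hkey hqZ
    have h7 : (β : ℤ) * (q * (1 + m' - ov v' h) + Ψ (wts v' y)) =
        q * (β * (1 + m' - ov v' h)) + β * Ψ (wts v' y) := by ring
    rw [h7, ← hΨ β b (wts v' y) hβ0 hwt] at h2
    linarith
  · -- the restriction is trivial
    push Not at htriv
    have hz : ∀ z : L, z ≠ 0 → ov w (ι z) = 0 := htriv
    have hb0 : b = 0 := by
      funext k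
      have h1 := hz (y k) (H.x0 k)
      rw [hιy k] at h1
      exact h1
    have h1 : ov w (aeval y (g 0)) = 0 := by
      have h2 := hz _ (hg 0)
      rwa [semi_fix hι (hgf 0)] at h2
    have h2 := restr_trivial hι H hff R hw hm hz hcι hcx
    rw [hcxv] at h2
    have h3 := mul_le_mul_of_nonneg_left h2 hqZ
    rw [h1, hb0, hΨ0, zero_add, add_zero]
    rw [hb0] at h3
    exact h3

/-- The inequality of the theorem of Bertini type in a finite extension. -/
theorem bertini_upX {E L : Type} [Field E] [Field L] [Algebra ℂ E] [Algebra ℂ L] [Algebra E L]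
    [IsScalarTower ℂ E L] [FiniteDimensional E L] {e : ℕ}
    {x : Fin (e + 2) → E} {f : MvPolynomial (Fin (e + 2)) ℂ}
    {g : Fin 1 → MvPolynomial (Fin (e + 2)) ℂ} {S : MvPolynomial (Fin (e + 2)) ℂ}
    (HE : FinData x f) (HL : FinData (fun k => algebraMap E L (x k)) f) (hd : 0 < e + 1)
    (H₀ : HypData x f) {D₀ : Fin (e + 1) → Derivation ℂ E E} {h₀ : E} (R₀ : ResForm x f D₀ h₀)
    {D : Fin (e + 1) → Derivation ℂ L L} {h : L}
    (R : ResForm (fun k => algebraMap E L (x k)) f D h) (hg : ∀ i, aeval x (g i) ≠ 0)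
    {q : ℕ} {C : (Fin (e + 2) → ℤ) → Prop} {Ψ : (Fin (e + 2) → ℤ) → ℤ}
    {t t' : ℕ} {gx : Fin t' → MvPolynomial (Fin (e + 2)) ℂ} {σ : Fin t → E}
    (hσ : ∀ i, Fixes x gx (σ i))
    (hC : ∀ (β : ℕ) (a a' : Fin (e + 2) → ℤ), 0 < β → (∀ k, (β : ℤ) * a' k = a k) → C a → C a')
    (hΨ : ∀ (β : ℕ) (a a' : Fin (e + 2) → ℤ), 0 < β → (∀ k, (β : ℤ) * a' k = a k) →
      Ψ a = β * Ψ a') (hΨ0 : Ψ 0 = 0)
    (hlc : ∀ (w : AddValuation E (WithTop ℤ)) (m : ℤ), Q.IsDivisorial (e + 1) w →
      C (wts w x) → (∀ i, 0 ≤ w (σ i)) → Q.FormOrder w D₀ m →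
      ov w (aeval x (g 0)) ≤ q * (1 + m - ov w h₀) + Ψ (wts w x))
    (hS0 : S ≠ 0) (hgen : GenCoeffX f g gx S)
    {w : AddValuation L (WithTop ℤ)} (hw : Q.IsDivisorial (e + 1) w)
    (hcone : C (wts w (fun k => algebraMap E L (x k))))
    (hwσ : ∀ i, 0 ≤ w (algebraMap E L (σ i))) {m : ℤ} (hm : Q.FormOrder w D m) :
    ov w (aeval (fun k => algebraMap E L (x k)) (g 0)) +
      q * (ov w (aeval (fun k => algebraMap E L (x k)) S) -
        minWt S (wts w (fun k => algebraMap E L (x k)))) ≤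
      q * (1 + m - ov w h) + Ψ (wts w (fun k => algebraMap E L (x k))) := by
  haveI := HE.ess
  haveI : Algebra.IsAlgebraic E L := Algebra.IsAlgebraic.of_finite E L
  obtain ⟨w₀, e₀, he, hw₀', hww⟩ := exists_restriction (K := E) (e + 1) w (divisorial_iff.1 hw)
  have hw₀ : Q.IsDivisorial (e + 1) w₀ := divisorial_iff.2 hw₀'
  obtain ⟨m₀, hm₀⟩ := order_exists hd HE.trdeg D₀ R₀.jac_ne hw₀
  have hxS := hgen.gen.aeval_ne H₀ hS0
  have hwx : ∀ k, (e₀ : ℤ) * wts w₀ x k = wts w (fun k => algebraMap E L (x k)) k := fun k => by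
    unfold wts
    rw [ov_algebraMap hww (HE.x0 k)]
  have h1 := bertiniX H₀ R₀ hg hσ hC hΨ hΨ0 hlc hS0 hgen hw₀ (hC e₀ _ _ he hwx hcone)
    (fun i => nonneg_of_nsmul he (by rw [← hww]; exact hwσ i)) hm₀
  have h2 := transfer_disc HE HL hd R₀ R he hw₀ hw hww hm₀ hm
  have h3 := mul_le_mul_of_nonneg_left h1 (Nat.cast_nonneg (α := ℤ) e₀)
  have h5 := minWt_smul hS0 _ _ e₀ hwx
  rw [hΨ e₀ _ _ he hwx, h5, h2, aeval_map, aeval_map, ov_algebraMap hww (hg 0),
    ov_algebraMap hww hxS]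
  calc _ = (e₀ : ℤ) * (ov w₀ (aeval x (g 0)) +
        q * (ov w₀ (aeval x S) - minWt S (wts w₀ x))) := by ring
    _ ≤ _ := h3
    _ = _ := by ring

end Vale.Agent.P283.H646L
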