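import Vale.Agent.P283.H646L.Bert
import Vale.Agent.P283.H646.Transfer

/-!
The theorem of Bertini type for a log canonical pair on a torus with a monomial ideal.
-/

set_option linter.all false

namespace Vale.Agent.P283.H646L

open MvPolynomial Finset
open Vale.Agent.P283.Z647 Vale.Agent.P283.H108
open Vale.Agent.P283 (IsCoords FormOrder logForm ov ov_mul ov_div ov_pow ov_prod ov_zpow coe_ov
  ov_eq_of nonneg_iff ov_inv)
open Vale.Agent.P283.H647 (ResForm HypData order_exists order_unique ov_monoT ov_lt_of gen_coeffs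
  poly coeff_poly exists_form toE toE_apply exists_shift)

/-- The substitution `X₀ = 1`. -/
noncomputable def rho (e : ℕ) :
    MvPolynomial (Fin (e + 2)) ℂ →ₐ[ℂ] MvPolynomial (Fin (e + 1)) ℂ :=
  aeval (Fin.cons 1 X)

theorem dvd_sub_rho {e : ℕ} (P : MvPolynomial (Fin (e + 2)) ℂ) :
    (X 0 - 1 : MvPolynomial (Fin (e + 2)) ℂ) ∣ P - rename Fin.succ (rho e P) := by
  induction P using MvPolynomial.induction_on with
  | C a =>
    have h : rename (Fin.succ : Fin (e + 1) → Fin (e + 2)) (rho e (C a)) = C a := by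
      rw [rho, aeval_C, algebraMap_eq, rename_C]
    rw [h, sub_self]
    exact dvd_zero _
  | add p q hp hq =>
    have h : p + q - rename Fin.succ (rho e (p + q)) =
        (p - rename Fin.succ (rho e p)) + (q - rename Fin.succ (rho e q)) := by
      rw [map_add, map_add]; ring
    rw [h]
    exact dvd_add hp hq
  | mul_X p i hp =>
    have h1 : rho e (X i) = (Fin.cons 1 X : Fin (e + 2) → MvPolynomial (Fin (e + 1)) ℂ) i := by
      rw [rho, aeval_X]
    induction i using Fin.cases with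
    | zero =>
      rw [Fin.cons_zero] at h1
      have h : p * X 0 - rename Fin.succ (rho e (p * X 0)) =
          p * (X 0 - 1) + (p - rename Fin.succ (rho e p)) := by
        rw [map_mul, map_mul, h1, map_one]; ring
      rw [h]
      exact dvd_add (dvd_mul_left _ _) hp
    | succ j =>
      rw [Fin.cons_succ] at h1
      have h : p * X j.succ - rename Fin.succ (rho e (p * X j.succ)) =
          (p - rename Fin.succ (rho e p)) * X j.succ := by
        rw [map_mul, map_mul, h1, rename_X]; ring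
      rw [h]
      exact dvd_mul_of_dvd_left hp _

variable {e : ℕ} {L : Type} [Field L] [Algebra ℂ L] {z : Fin (e + 1) → L}

theorem aeval_cons (P : MvPolynomial (Fin (e + 2)) ℂ) :
    aeval (Fin.cons 1 z : Fin (e + 2) → L) P = aeval z (rho e P) := by
  have h : (aeval (Fin.cons 1 z : Fin (e + 2) → L) : MvPolynomial (Fin (e + 2)) ℂ →ₐ[ℂ] L) =
      (aeval z).comp (rho e) := by
    apply MvPolynomial.algHom_ext
    intro i
    rw [aeval_X, AlgHom.comp_apply, rho, aeval_X]
    induction i using Fin.cases with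
    | zero => rw [Fin.cons_zero, Fin.cons_zero, map_one]
    | succ j => rw [Fin.cons_succ, Fin.cons_succ, aeval_X]
  rw [h, AlgHom.comp_apply]

theorem aeval_cons_rename (P : MvPolynomial (Fin (e + 1)) ℂ) :
    aeval (Fin.cons 1 z : Fin (e + 2) → L) (rename Fin.succ P) = aeval z P := by
  rw [aeval_rename]
  congr 1

theorem hypZ (hz : ∀ j, z j ≠ 0) (ind : AlgebraicIndependent ℂ z)
    (gen : ∀ f : L, ∃ p r : MvPolynomial (Fin (e + 1)) ℂ, r ≠ 0 ∧ f = aeval z p / aeval z r) :
    HypData (Fin.cons 1 z : Fin (e + 2) → L) (X 0 - 1) where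
  gen := by
    intro g
    obtain ⟨p, r, hr, h⟩ := gen g
    refine ⟨rename Fin.succ p, rename Fin.succ r, ?_, ?_⟩
    · rw [aeval_cons_rename]
      intro h0
      exact hr (ind (by rw [h0, map_zero]))
    · rw [aeval_cons_rename, aeval_cons_rename]; exact h
  ker := by
    intro P
    constructor
    · intro h0
      rw [aeval_cons] at h0
      have h1 : rho e P = 0 := ind (by rw [h0, map_zero])
      have h2 := dvd_sub_rho P
      rw [h1, map_zero, sub_zero] at h2
      exact h2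
    · rintro ⟨Q, rfl⟩
      rw [map_mul, map_sub, aeval_X, Fin.cons_zero, map_one, sub_self, zero_mul]
  f0 := by
    intro h0
    have h1 := congrArg (eval (fun _ => (0 : ℂ))) h0
    simp at h1
  x0 := by
    intro j
    induction j using Fin.cases with
    | zero => rw [Fin.cons_zero]; exact one_ne_zero
    | succ j => rw [Fin.cons_succ]; exact hz j

theorem resZ (hz : ∀ j, z j ≠ 0) {D' : Fin (e + 1) → Derivation ℂ L L}
    (hD' : Q.jac D' z ≠ 0) :
    ResForm (Fin.cons 1 z : Fin (e + 2) → L) (X 0 - 1) D' (Q.jac D' z)⁻¹ where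
  x0 := by
    intro j
    induction j using Fin.cases with
    | zero => rw [Fin.cons_zero]; exact one_ne_zero
    | succ j => rw [Fin.cons_succ]; exact hz j
  eqn := by
    rw [map_sub, aeval_X, Fin.cons_zero, map_one, sub_self]
  smooth := by
    refine ⟨0, ?_⟩
    rw [map_sub, pderiv_X_self, pderiv_one, sub_zero, map_one]
    exact one_ne_zero
  h0 := inv_ne_zero hD'
  res := by
    intro i
    induction i using Fin.cases with
    | zero =>
      have h1 : (Fin.cons 1 z : Fin (e + 2) → L) ∘ (0 : Fin (e + 2)).succAbove = z := by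
        funext j
        simp
      rw [h1, map_sub, pderiv_X_self, pderiv_one, sub_zero, map_one]
      simp [hD']
    | succ i =>
      have h1 : Q.jac D' ((Fin.cons 1 z : Fin (e + 2) → L) ∘ (i.succ).succAbove) = 0 := by
        unfold Q.jac
        apply Matrix.det_eq_zero_of_row_eq_zero 0
        intro j
        simp
      have h2 : aeval (Fin.cons 1 z : Fin (e + 2) → L)
          (pderiv i.succ (X 0 - 1 : MvPolynomial (Fin (e + 2)) ℂ)) = 0 := by
        rw [map_sub, pderiv_one, sub_zero, pderiv_X_of_ne (Fin.succ_ne_zero i).symm, map_zero]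
      rw [h1, h2, mul_zero, mul_zero]

/-- The pairing of an exponent with the orders of the coordinates. -/
noncomputable def pair {n : ℕ} (w : AddValuation L (WithTop ℤ)) (z : Fin n → L) (γ : Fin n → ℤ) :
    ℤ := ∑ j, γ j * ov w (z j)

/-- The greatest pairing. -/
noncomputable def maxP {n : ℕ} (M : Finset (Fin n → ℤ)) (a : Fin n → ℤ) : ℤ := by
  classical
  exact if h : M.Nonempty then
    ∑ j, (M.exists_max_image (fun μ => ∑ j, μ j * a j) h).choose j * a j else 0

theorem maxP_spec {n : ℕ} {M : Finset (Fin n → ℤ)} (hM : M.Nonempty) (a : Fin n → ℤ) :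
    (∃ μ ∈ M, maxP M a = ∑ j, μ j * a j) ∧ ∀ μ ∈ M, ∑ j, μ j * a j ≤ maxP M a := by
  have h := (M.exists_max_image (fun μ => ∑ j, μ j * a j) hM).choose_spec
  have h1 : maxP M a = ∑ j, (M.exists_max_image (fun μ => ∑ j, μ j * a j) hM).choose j * a j := by
    unfold maxP
    rw [dif_pos hM]
  rw [h1]
  exact ⟨⟨_, h.1, rfl⟩, h.2⟩

theorem le_maxP {n : ℕ} {M : Finset (Fin n → ℤ)} {μ : Fin n → ℤ} (hμ : μ ∈ M)
    (a : Fin n → ℤ) : ∑ j, μ j * a j ≤ maxP M a := (maxP_spec ⟨μ, hμ⟩ a).2 μ hμ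

theorem exists_maxP {n : ℕ} {M : Finset (Fin n → ℤ)} (hM : M.Nonempty) (a : Fin n → ℤ) :
    ∃ μ ∈ M, maxP M a = ∑ j, μ j * a j := (maxP_spec hM a).1

theorem maxP_mul {n : ℕ} {M : Finset (Fin n → ℤ)} (hM : M.Nonempty) (β : ℕ) (a a' : Fin n → ℤ)
    (h : ∀ j, (β : ℤ) * a' j = a j) : maxP M a = β * maxP M a' := by
  have hβ : (0 : ℤ) ≤ β := by positivity
  have h1 : ∀ μ : Fin n → ℤ, ∑ j, μ j * a j = β * ∑ j, μ j * a' j := by
    intro μ
    rw [Finset.mul_sum]
    refine Finset.sum_congr rfl fun j _ => ?_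
    rw [← h]; ring
  obtain ⟨μ, hμ, hμ'⟩ := exists_maxP hM a
  obtain ⟨ν, hν, hν'⟩ := exists_maxP hM a'
  have h2 := le_maxP hν a
  have h3 := le_maxP hμ a'
  rw [h1] at h2 hμ'
  rw [hν'] at h3 ⊢
  rw [hμ'] at h2 ⊢
  have h4 := mul_le_mul_of_nonneg_left h3 hβ
  exact le_antisymm h4 h2

/-- **The theorem of Bertini type** for a pair on the torus with coordinates `z`. -/
theorem bert_n {n : ℕ} (hn : 0 < n) {L : Type} [Field L] [Algebra ℂ L] {z : Fin n → L}
    (hz : ∀ j, z j ≠ 0) (ind : AlgebraicIndependent ℂ z)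
    (gen : ∀ f : L, ∃ p r : MvPolynomial (Fin n) ℂ, r ≠ 0 ∧ f = aeval z p / aeval z r)
    {P E : MvPolynomial (Fin n) ℂ} (hP : P ≠ 0) (hE : E ≠ 0)
    {D' : Fin n → Derivation ℂ L L} (hD' : Q.jac D' z = ∏ j, z j) (q : ℕ)
    {M : Finset (Fin n → ℤ)} (hM : M.Nonempty)
    (hlc : ∀ (w : AddValuation L (WithTop ℤ)) (m : ℤ), Q.IsDivisorial n w →
      (∀ j, 0 ≤ w (z j)) → w (aeval z E) = 0 → Q.FormOrder w D' m →
      ∃ μ ∈ M, ov w (aeval z P) ≤ q * (1 + m) + ∑ j, μ j * ov w (z j))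
    {Ee : Finset (Fin n → ℤ)} (hEe : Ee.Nonempty) :
    ∃ c : (Fin n → ℤ) → ℂ, (∑ γ ∈ Ee, c γ • ∏ j, z j ^ γ j) ≠ 0 ∧
      ∀ (w : AddValuation L (WithTop ℤ)) (m : ℤ), Q.IsDivisorial n w →
        (∀ j, 0 ≤ w (z j)) → w (aeval z E) = 0 → Q.FormOrder w D' m →
        ∃ γ₀ ∈ Ee, (∀ γ ∈ Ee, ∑ j, γ₀ j * ov w (z j) ≤ ∑ j, γ j * ov w (z j)) ∧
          ∑ j, γ₀ j * ov w (z j) ≤ ov w (∑ γ ∈ Ee, c γ • ∏ j, z j ^ γ j) ∧
          ov w (aeval z P) + q * (ov w (∑ γ ∈ Ee, c γ • ∏ j, z j ^ γ j) -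
            ∑ j, γ₀ j * ov w (z j)) ≤
            q * (1 + m) + maxP M (fun j => ov w (z j)) := by
  classical
  obtain ⟨e, rfl⟩ : ∃ e, n = e + 1 := ⟨n - 1, by omega⟩
  set y : Fin (e + 2) → L := Fin.cons 1 z with hy
  have H : HypData y (X 0 - 1) := hypZ hz ind gen
  have hprod : (∏ j, z j) ≠ 0 := Finset.prod_ne_zero_iff.2 fun j _ => hz j
  have R : ResForm y (X 0 - 1) D' (Q.jac D' z)⁻¹ := resZ hz (by rw [hD']; exact hprod)
  have hov1 : ∀ w : AddValuation L (WithTop ℤ), ov w (1 : L) = 0 := fun w =>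
    ov_eq_of w (by rw [AddValuation.map_one]; rfl)
  have hovh : ∀ w : AddValuation L (WithTop ℤ), ov w (Q.jac D' z)⁻¹ = - ∑ j, ov w (z j) := by
    intro w
    rw [hD', ov_inv, ov_prod _ _ fun j _ => hz j]
  let g : Fin 2 → MvPolynomial (Fin (e + 2)) ℂ := ![rename Fin.succ P, rename Fin.succ E]
  have hg0 : aeval y (g 0) = aeval z P := aeval_cons_rename P
  have hg1 : aeval y (g 1) = aeval z E := aeval_cons_rename E
  have hPz : aeval z P ≠ 0 := fun h0 => hP (ind (by rw [h0, map_zero]))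
  have hEz : aeval z E ≠ 0 := fun h0 => hE (ind (by rw [h0, map_zero]))
  have hg : ∀ i, aeval y (g i) ≠ 0 := by
    intro i
    fin_cases i
    · exact hg0 ▸ hPz
    · exact hg1 ▸ hEz
  let vv : (Fin (e + 1) → ℤ) → (Fin (e + 2) → ℤ) := fun γ => Fin.cons 0 γ
  obtain ⟨T, hT0, hT⟩ := exists_shift Ee vv
  obtain ⟨S, hS1, hSg⟩ := exists_genCoeff (X 0 - 1) g (Ee.image fun γ => toE (T + vv γ))
  have hS0 : S ≠ 0 := by
    intro h0
    rw [h0, support_zero] at hS1
    exact (hEe.image _).ne_empty hS1.symm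
  have hinj : Set.InjOn (fun γ => toE (T + vv γ)) (Ee : Set (Fin (e + 1) → ℤ)) := by
    intro γ hγ γ' hγ' h
    funext j
    have h1 := congrArg (fun u : Fin (e + 2) →₀ ℕ => ((u j.succ : ℕ) : ℤ)) h
    simp only [] at h1
    rw [toE_apply (hT γ hγ), toE_apply (hT γ' hγ')] at h1
    simp only [Pi.add_apply, vv, Fin.cons_succ] at h1
    omega
  set YT : L := ∏ j, y j ^ T j with hYT
  have hYT0 : YT ≠ 0 := Finset.prod_ne_zero_iff.2 fun j _ => zpow_ne_zero _ (H.x0 j)
  have hxS := hSg.aeval_ne H hS0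
  have hSform : aeval y S = YT * ∑ γ ∈ Ee, S.coeff (toE (T + vv γ)) • ∏ j, z j ^ γ j := by
    conv_lhs => rw [S.as_sum, map_sum, hS1, Finset.sum_image hinj]
    rw [Finset.mul_sum]
    refine Finset.sum_congr rfl fun γ hγ => ?_
    rw [aeval_monomial, Finsupp.prod_fintype _ _ (by simp), Algebra.smul_def]
    have h1 : ∏ j, y j ^ (toE (T + vv γ) j) = YT * ∏ j, z j ^ γ j := by
      have h2 : ∏ j, z j ^ γ j = ∏ j, y j ^ (vv γ j) := by
        rw [Fin.prod_univ_succ (fun j => y j ^ (vv γ j))]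
        simp only [hy, vv, Fin.cons_zero, Fin.cons_succ, one_zpow, one_mul]
      rw [h2, hYT, ← Finset.prod_mul_distrib]
      refine Finset.prod_congr rfl fun j _ => ?_
      rw [← zpow_add₀ (H.x0 j), ← zpow_natCast, toE_apply (hT γ hγ)]
      rfl
    rw [h1]; ring
  have hwty : ∀ w : AddValuation L (WithTop ℤ), wts w y = Fin.cons 0 (fun j => ov w (z j)) := by
    intro w
    funext j
    unfold wts
    induction j using Fin.cases with
    | zero => rw [hy, Fin.cons_zero, Fin.cons_zero, hov1]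
    | succ j => rw [hy, Fin.cons_succ, Fin.cons_succ]
  have hwtZ : ∀ w : AddValuation L (WithTop ℤ), ∀ γ ∈ Ee,
      wtZ (wts w y) (toE (T + vv γ)) = ov w YT + ∑ j, γ j * ov w (z j) := by
    intro w γ hγ
    have h1 : ov w YT = ∑ j, T j * wts w y j := by
      rw [hYT, ov_prod _ _ fun j _ => zpow_ne_zero _ (H.x0 j)]
      exact Finset.sum_congr rfl fun j _ => ov_zpow w (H.x0 j) _
    have h2 : ∑ j, γ j * ov w (z j) = ∑ j, vv γ j * wts w y j := by
      rw [Fin.sum_univ_succ (fun j => vv γ j * wts w y j), hwty w]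
      simp only [vv, Fin.cons_zero, Fin.cons_succ, mul_zero, zero_add]
    rw [h1, h2, ← Finset.sum_add_distrib]
    unfold wtZ
    refine Finset.sum_congr rfl fun j _ => ?_
    rw [toE_apply (hT γ hγ), Pi.add_apply]; ring
  refine ⟨fun γ => S.coeff (toE (T + vv γ)), ?_, ?_⟩
  · intro h0
    rw [h0, mul_zero] at hSform
    exact hxS hSform
  set S' : L := ∑ γ ∈ Ee, S.coeff (toE (T + vv γ)) • ∏ j, z j ^ γ j with hS'
  have hS'0 : S' ≠ 0 := by
    intro h0
    rw [h0, mul_zero] at hSform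
    exact hxS hSform
  intro w m hw hnn hwE hm
  have hovS : ov w (aeval y S) = ov w YT + ov w S' := by
    rw [hSform, ov_mul w hYT0 hS'0]
  have hb := bertiniL H R hg (q := q) (C := fun a => ∀ j, 0 ≤ a j)
    (Ψ := fun a => -(q : ℤ) * (∑ j : Fin (e + 1), a j.succ) + maxP M (fun j => a j.succ))
    (by
      intro β a a' hβ h ha j
      have h1 : (0 : ℤ) < β := by exact_mod_cast hβ
      have h2 := ha j
      rw [← h j] at h2
      exact nonneg_of_mul_nonneg_right h2 h1)
    (by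
      intro β a a' hβ h
      show -(q : ℤ) * (∑ j : Fin (e + 1), a j.succ) + maxP M (fun j => a j.succ) =
        β * (-(q : ℤ) * (∑ j : Fin (e + 1), a' j.succ) + maxP M (fun j => a' j.succ))
      rw [maxP_mul hM β (fun j => a j.succ) (fun j => a' j.succ) (fun j => h j.succ)]
      have h2 : ∑ j : Fin (e + 1), a j.succ = β * ∑ j : Fin (e + 1), a' j.succ := by
        rw [Finset.mul_sum]
        exact Finset.sum_congr rfl fun j _ => (h j.succ).symm
      rw [h2]; ring)
    (by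
      show -(q : ℤ) * (∑ j : Fin (e + 1), (0 : Fin (e + 2) → ℤ) j.succ) +
        maxP M (fun _ => 0) = 0
      simp only [Pi.zero_apply, Finset.sum_const_zero, mul_zero, zero_add]
      obtain ⟨μ, -, hμ⟩ := exists_maxP hM (fun _ : Fin (e + 1) => (0 : ℤ))
      rw [hμ]
      simp)
    (by
      intro w m hw hC hE hm
      rw [hg1] at hE
      rw [hg0, hovh]
      have h1 : ∀ j, 0 ≤ w (z j) := by
        intro j
        rw [nonneg_iff w (hz j)]
        have := hC j.succ
        rw [hwty w, Fin.cons_succ] at this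
        exact this
      obtain ⟨μ, hμ, h2⟩ := hlc w m hw h1 (by
        rw [← coe_ov w hEz, hE]; rfl) hm
      have h3 := le_maxP hμ (fun j => ov w (z j))
      rw [hwty w]
      simp only [Fin.cons_succ]
      have h4 : (q : ℤ) * (1 + m - -∑ j, ov w (z j)) + (-(q : ℤ) * ∑ j, ov w (z j) +
        maxP M fun j => ov w (z j)) = q * (1 + m) + maxP M fun j => ov w (z j) := by ring
      rw [h4]
      linarith)
    hS0 hSg hw (by
      intro j
      rw [hwty w]
      induction j using Fin.cases with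
      | zero => rw [Fin.cons_zero]
      | succ j =>
        rw [Fin.cons_succ]
        exact (nonneg_iff w (hz j)).1 (hnn j))
    (by
      rw [hg1]
      exact ov_eq_of w (by rw [hwE]; rfl)) hm
  obtain ⟨⟨α₀, hα₀, hα₀w⟩, hmin⟩ := isMinZ_minWt hS0 (wts w y)
  rw [hS1] at hα₀
  obtain ⟨γ₀, hγ₀, rfl⟩ := Finset.mem_image.1 hα₀
  rw [hwtZ w γ₀ hγ₀] at hα₀w
  refine ⟨γ₀, hγ₀, ?_, ?_, ?_⟩
  · intro γ hγ
    have h1 := hmin (toE (T + vv γ)) (by rw [hS1]; exact Finset.mem_image_of_mem _ hγ)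
    rw [hwtZ w γ hγ, ← hα₀w] at h1
    linarith
  · have h1 := ov_lower hw.const H.x0 hxS (isMinZ_minWt hS0 (wts w y))
    rw [hovS, ← hα₀w] at h1
    linarith
  · rw [hg0, hovh, hovS, ← hα₀w, hwty w] at hb
    simp only [Fin.cons_succ] at hb
    have h4 : (q : ℤ) * (1 + m - -∑ j, ov w (z j)) + (-(q : ℤ) * ∑ j, ov w (z j) +
        maxP M fun j => ov w (z j)) = q * (1 + m) + maxP M fun j => ov w (z j) := by ring
    rw [h4] at hb
    have h5 : ov w YT + ov w S' - (ov w YT + ∑ j, γ₀ j * ov w (z j)) =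
        ov w S' - ∑ j, γ₀ j * ov w (z j) := by ring
    rw [h5] at hb
    exact hb

end Vale.Agent.P283.H646L
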