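import Vale.Agent.P283.H646L.EngineL

/-!
P283: the engine applied to the quotients `X = Y / G`.
-/

set_option linter.style.haveILetI false

namespace Vale.Agent.P283.H646L

open scoped KaehlerDifferential
open MvPolynomial Finset Vale.Agent.P283
open Vale.Agent.P283.H646 (StrongComplF)

theorem result_coords (k : ℕ) (hd : 0 < 0 + k) (J : ℕ) : ∃ c₀ : ℕ, 0 < c₀ ∧
    ∀ ε : ℝ, 0 < ε → ∀ η : ℝ, 0 < η → ∀ N' Q₀ : ℕ, 0 < Q₀ →
      (c₀ : ℝ) * (1 + 1 / (Q₀ * (η * ε))) ≤ N' →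
    ∀ (K L : Type) [Field K] [Field L] [Algebra ℂ K] [Algebra ℂ L]
      [Algebra K L] [IsScalarTower ℂ K L] (x : Fin (0 + 1) → L) (z : Fin k → L)
      (g : MvPolynomial (Fin k) ℂ) (b : Fin k → ℚ) (G : Subgroup (L ≃ₐ[ℂ] L))
      (A : Subalgebra ℂ K), Q.IsQuotient x z g b G A →
    ∀ (G0 : Subgroup (L ≃ₐ[ℂ] L)) (v : Fin k → (Fin k → ℂ)), G0 ≤ G → G0.relIndex G ≤ J →
      LinearIndependent ℂ v → (∀ j, b j ≠ 0 → v j = Pi.single j 1) →
      (∀ τ ∈ G0, ∀ i, ∃ c : ℂ, τ (x i) = c • x i) →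
      (∀ τ ∈ G0, ∀ j, ∃ c : ℂ, τ (Abs.lin z (v j)) = c • Abs.lin z (v j)) →
    ∀ (M : Finset (Fin k → ℤ)) (f E : L), (∀ τ ∈ G, ∃ κ : ℂ, τ f = algebraMap ℂ L κ * f) →
      LData k (Abs.nT x z v) (x 0) G0 (fun j => 1 - b j) Q₀ η M f E →
    ∀ ω : ⋀[K]^(0 + k) (Ω[K⁄ℂ]), ω ≠ 0 → ∀ B : QDivisor A,
    (∀ h : L, IsPullback ω (h • ((∏ l, Fin.tail x l)⁻¹ • wedgeD (0 + k)
        (Fin.append (Fin.tail x) z))) →
      ∀ (u : AddValuation K (WithTop ℤ)) (p : Ideal A) (m : ℤ) (w : AddValuation L (WithTop ℤ))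
        (e : ℕ), IsPrimeDivisorOn A (0 + k) u p → FormOrder (0 + k) u ω m → 0 < e →
        (∃ f, w f = 1) → (∀ f : K, w (algebraMap K L f) = e • u f) →
        (e : ℚ) * (m + B.coeff p) = ov w h + ∑ j, b j * ov w (z j) + (ov w f : ℚ) / Q₀) →
    IsEpsLC (0 + k) ω B ε → StrongComplF (0 + k) ω B E (N' * Q₀ * J.factorial) := by
  classical
  obtain ⟨c, hc, heng⟩ := engineL k hd J
  refine ⟨c, hc, ?_⟩
  intro ε hε η hη N' Q₀ hQ₀ hn K L _ _ _ _ _ _ x z g b G A H G0 v hle hidx hv hvb hdiag0 hdiag M f E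
    hfG HF ω hω B hcrep hlc
  obtain ⟨g', hg', haev⟩ := Abs.exists_newg v hv H
  obtain ⟨c₀, hc₀, homega⟩ := Abs.omY_eq v hv H
  obtain ⟨F₀, hF₀, hpull, hsemi⟩ := Abs.exists_pullback H ω hω
  have hcoords := Abs.isCoords_nT v hv H
  -- the data
  have hdata : EngineData 0 k J (Abs.nT x z v) g' (x 0) G G0 A :=
    { coords := hcoords
      g_ne := hg'
      x0_eq := by
        rw [haev]
        exact Abs.x0_mul H
      fin := H.finite
      fix := fun f => (H.field f).symm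
      le := hle
      index := hidx
      diag := by
        rintro τ hτ (l | j)
        · exact hdiag0 τ hτ l.succ
        · exact hdiag τ hτ j
      diag0 := fun τ hτ => hdiag0 τ hτ 0
      frac := by
        intro f
        obtain ⟨x, hx, y, hy, hy0, h⟩ := Abs.ring_frac H f
        exact ⟨x, hx, y, hy, hy0, h⟩
      sub := fun a ha => Abs.ring_sub H v hv a ha
      int0 := Abs.rY_integral H (Abs.x_mem x z 0)
      int := by
        rintro (l | j)
        · exact Abs.rY_integral H (Abs.x_mem x z l.succ)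
        · exact Abs.rY_integral H (Abs.lin_mem x z _) }
  -- denominators
  let D : ℕ := ∏ j, (b j).den
  have hD : 0 < D := Finset.prod_pos fun j _ => (b j).den_pos
  have hDb : ∀ j, ∃ e : ℤ, (e : ℚ) = D * b j := by
    intro j
    obtain ⟨m, hm⟩ : (b j).den ∣ D := Finset.dvd_prod_of_mem _ (Finset.mem_univ j)
    refine ⟨m * (b j).num, ?_⟩
    rw [hm]
    push_cast
    have := Rat.den_mul_eq_num (b j)
    rw [mul_comm ((b j).den : ℚ) m, mul_assoc, this]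
  choose e₁ he₁ using hDb
  let e₀ : Fin k → ℤ := fun j => e₁ j * Q₀
  have he₀ : ∀ j, (e₀ j : ℚ) = (D * Q₀ : ℕ) * b j := by
    intro j
    simp only [e₀]
    push_cast
    rw [he₁]
    ring
  have hDQ : 0 < D * Q₀ := Nat.mul_pos hD hQ₀
  have he1 : ∀ i j, b i = b j → e₀ i = e₀ j := by
    intro i j hij
    have h1 := he₀ i
    rw [hij, ← he₀ j] at h1
    exact_mod_cast h1
  have he2 : ∀ j, b j = 0 → e₀ j = 0 := by
    intro j hj
    have h1 := he₀ j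
    rw [hj, mul_zero] at h1
    exact_mod_cast h1
  -- the semi-invariant function
  let F' : L := F₀ ^ (D * Q₀) * (∏ j, z j ^ e₀ j) * f ^ D
  have hF : ∀ τ ∈ G, ∃ κ : ℂ, τ F' = algebraMap ℂ L κ * F' := by
    intro τ hτ
    obtain ⟨κ₁, -, h1⟩ := hsemi τ hτ
    obtain ⟨κ₂, h2⟩ := Abs.prodZ_semi H e₀ he1 he2 τ hτ
    obtain ⟨κ₃, h3⟩ := hfG τ hτ
    refine ⟨κ₁ ^ (D * Q₀) * κ₂ * κ₃ ^ D, ?_⟩
    simp only [F']
    rw [map_mul, map_mul, map_pow, map_pow, h1, h2, h3, map_mul, map_mul, map_pow, map_pow]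
    ring
  have hfin : Finite G := H.finite
  let N : ℕ := Nat.card G
  have hN : 0 < N := Nat.card_pos
  obtain ⟨ψ, hψ⟩ := Abs.pow_invariant H F' hF
  let zz : Fin k → L := fun j => Abs.lin z (v j)
  have hzz : ∀ j, zz j ≠ 0 := fun j => hcoords.ne_zero (Sum.inr j)
  have hzb : ∀ j, b j ≠ 0 → zz j = z j := by
    intro j hj
    show Abs.lin z (v j) = _
    rw [hvb j hj, Abs.lin_single]
  have hc₁ : algebraMap ℂ L c₀ ≠ 0 := (map_ne_zero _).mpr hc₀
  let h : L := F₀ * (algebraMap ℂ L c₀ * ∏ j, zz j)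
  have hprodzz : ∏ j, zz j ≠ 0 := Finset.prod_ne_zero_iff.mpr fun j _ => hzz j
  have hh0 : h ≠ 0 := mul_ne_zero hF₀ (mul_ne_zero hc₁ hprodzz)
  have hpull' : IsPullback ω (h • logForm (Abs.nT x z v)) := by
    have : h • logForm (Abs.nT x z v) = F₀ • Abs.omY x z := by
      rw [homega, smul_smul]
    rw [this]
    exact hpull
  have hinv : ∀ τ ∈ G0, τ h = h := by
    intro τ hτ
    refine h_invariant (Abs.nT x z v) hcoords τ
      (fun f => (H.field _).mp ⟨f, rfl⟩ τ (hle hτ)) ?_ ω h hpull'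
    rintro (l | j)
    · exact hdiag0 τ hτ l.succ
    · exact hdiag τ hτ j
  have hpow : ∀ j, zz j ^ (((D * Q₀ * N : ℕ) : ℤ) - (((D * Q₀ * N : ℕ) : ℤ) - N * e₀ j))
      = z j ^ (N * e₀ j) := by
    intro j
    rw [sub_sub_cancel]
    by_cases hj : b j = 0
    · rw [he2 j hj]; simp
    · rw [hzb j hj]
  refine heng ε hε η hη N' Q₀ hQ₀ hn K L (Abs.nT x z v) g' (x 0) G G0 A hdata
    ω h hω hh0 hpull' hinv B (fun j => 1 - b j) (D * N)
    (fun j => ((D * Q₀ * N : ℕ) : ℤ) - N * e₀ j) ψ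
    ((c₀ ^ (D * Q₀ * N))⁻¹) M f E (Nat.mul_pos hD hN) ?_ (inv_ne_zero (pow_ne_zero _ hc₀)) ?_ ?_
    HF hlc
  · intro j
    push_cast
    rw [he₀ j]
    push_cast
    ring
  · -- the equation of `r (K_X + B)`
    rw [hψ]
    show F' ^ N = ((c₀ ^ (D * Q₀ * N))⁻¹) • (h ^ (D * N * Q₀) * (∏ j, Abs.nT x z v (Sum.inr j) ^
      (-(((D * Q₀ * N : ℕ) : ℤ) - N * e₀ j))) * f ^ (D * N))
    have h1 : ∏ j, Abs.nT x z v (Sum.inr j) ^ (-(((D * Q₀ * N : ℕ) : ℤ) - N * e₀ j))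
        = (∏ j, z j ^ (N * e₀ j)) / (∏ j, zz j) ^ (D * Q₀ * N) := by
      rw [← Finset.prod_pow, ← Finset.prod_div_distrib]
      refine Finset.prod_congr rfl fun j _ => ?_
      rw [← hpow j]
      show zz j ^ (-(((D * Q₀ * N : ℕ) : ℤ) - N * e₀ j)) = _
      rw [zpow_sub₀ (hzz j) ((D * Q₀ * N : ℕ) : ℤ), zpow_natCast, zpow_neg]
      have h2 : zz j ^ (D * Q₀ * N) ≠ 0 := pow_ne_zero _ (hzz j)
      field_simp
    rw [h1, Algebra.smul_def, map_inv₀, map_pow]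
    have h3 : ∏ j, z j ^ (N * e₀ j) = (∏ j, z j ^ e₀ j) ^ N := by
      rw [← Finset.prod_pow]
      refine Finset.prod_congr rfl fun j _ => ?_
      rw [mul_comm (N : ℤ), zpow_mul, zpow_natCast]
    rw [h3]
    simp only [F', h]
    have h4 : (∏ j, zz j) ^ (D * Q₀ * N) ≠ 0 := pow_ne_zero _ hprodzz
    have h5 : algebraMap ℂ L c₀ ^ (D * Q₀ * N) ≠ 0 := pow_ne_zero _ hc₁
    have h6 : D * N * Q₀ = D * Q₀ * N := by ring
    rw [h6, mul_pow, mul_pow, mul_pow, mul_pow, ← pow_mul, ← pow_mul]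
    field_simp
  · -- crepancy
    intro u p m w e hu hum he hw huw
    have h1 := hcrep F₀ hpull u p m w e hu hum he hw huw
    rw [h1]
    have hwc : ov w (algebraMap ℂ L c₀) = 0 := by
      have h2 := huw (algebraMap ℂ K c₀)
      rw [hu.1.const c₀ hc₀, smul_zero] at h2
      have h3 : algebraMap K L (algebraMap ℂ K c₀) = algebraMap ℂ L c₀ :=
        (IsScalarTower.algebraMap_apply ℂ K L c₀).symm
      rw [h3] at h2
      exact ov_eq_of w h2
    have h2 : ov w h = ov w F₀ + ∑ j, ov w (zz j) := by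
      show ov w (F₀ * (algebraMap ℂ L c₀ * ∏ j, zz j)) = _
      rw [ov_mul w hF₀ (mul_ne_zero hc₁ hprodzz), ov_mul w hc₁ hprodzz, hwc, zero_add,
        ov_prod Finset.univ zz (fun j _ => hzz j)]
    rw [h2]
    push_cast
    have h3 : ∑ j, (1 - b j) * (ov w (Abs.nT x z v (Sum.inr j)) : ℚ)
        = ∑ j, (ov w (zz j) : ℚ) - ∑ j, b j * (ov w (z j) : ℚ) := by
      rw [← Finset.sum_sub_distrib]
      refine Finset.sum_congr rfl fun j _ => ?_
      show (1 - b j) * (ov w (zz j) : ℚ) = _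
      by_cases hj : b j = 0
      · rw [hj]; ring
      · rw [hzb j hj]; ring
    rw [h3]
    ring

end Vale.Agent.P283.H646L
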