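import Vale.Agent.P283.H646.EngineF
import Vale.Agent.P283.H646L.BertZ

/-!
P283: from log canonical complements to klt complements, the engine for quotients of affine space.
-/

set_option linter.all false

namespace Vale.Agent.P283.H646L

open scoped KaehlerDifferential
open MvPolynomial Finset Vale.Agent.P283
open Vale.Agent.P283.H646 (StrongComplF)

/-- The properties of the additional boundary `(1 / Q₀) div(f)`. -/
structure LData (k : ℕ) {L : Type} [Field L] [Algebra ℂ L] (t : Fin 0 ⊕ Fin k → L) (x0 : L)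
    (G0 : Subgroup (L ≃ₐ[ℂ] L)) (c : Fin k → ℚ) (Q₀ : ℕ) (η : ℝ) (M : Finset (Fin k → ℤ))
    (f E : L) : Prop where
  f_ne : f ≠ 0
  nonneg : ∀ w : AddValuation L (WithTop ℤ), (∀ c : ℂ, c ≠ 0 → w (algebraMap ℂ L c) = 0) →
    (∀ i, 0 ≤ w (t i)) → 0 ≤ w x0 → 0 ≤ w f
  ne : M.Nonempty
  inv : ∀ μ ∈ M, ∀ τ ∈ G0,
    τ (f * (∏ j, t (Sum.inr j) ^ μ j)⁻¹) = f * (∏ j, t (Sum.inr j) ^ μ j)⁻¹
  le : ∀ w : AddValuation L (WithTop ℤ), IsDivisorial (0 + k) w → (∀ i, 0 ≤ w (t i)) →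
    0 ≤ w x0 → w E = 0 → ∀ μ ∈ M,
    ∀ j, (μ j : ℝ) * ov w (t (Sum.inr j)) ≤ Q₀ * (1 - η) * c j * ov w (t (Sum.inr j))
  bert : ∀ Ee : Finset (Fin k → ℤ), Ee.Nonempty → ∃ cc : (Fin k → ℤ) → ℂ,
    (∑ γ ∈ Ee, cc γ • ∏ j, t (Sum.inr j) ^ γ j) ≠ 0 ∧
    ∀ (w : AddValuation L (WithTop ℤ)) (m : ℤ), IsDivisorial (0 + k) w →
    (∀ i, 0 ≤ w (t i)) → 0 ≤ w x0 → w E = 0 → FormOrder (0 + k) w (logForm t) m →
    ∃ γ₀ ∈ Ee, (∀ γ ∈ Ee, ∑ j, γ₀ j * ov w (t (Sum.inr j)) ≤ ∑ j, γ j * ov w (t (Sum.inr j))) ∧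
      ∑ j, γ₀ j * ov w (t (Sum.inr j)) ≤ ov w (∑ γ ∈ Ee, cc γ • ∏ j, t (Sum.inr j) ^ γ j) ∧
      ov w f + Q₀ * (ov w (∑ γ ∈ Ee, cc γ • ∏ j, t (Sum.inr j) ^ γ j) -
        ∑ j, γ₀ j * ov w (t (Sum.inr j))) ≤
        Q₀ * (1 + m) + maxP M (fun j => ov w (t (Sum.inr j)))

/-- The lower bound for a linear combination of monomials. -/
theorem low_sum {k : ℕ} {L : Type} [Field L] [Algebra ℂ L] {w : AddValuation L (WithTop ℤ)}
    (hc : ∀ c : ℂ, c ≠ 0 → w (algebraMap ℂ L c) = 0) {z : Fin k → L} (hz : ∀ j, z j ≠ 0)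
    {Ee : Finset (Fin k → ℤ)} {cc : (Fin k → ℤ) → ℂ}
    (hS : (∑ γ ∈ Ee, cc γ • ∏ j, z j ^ γ j) ≠ 0) {b : ℤ}
    (hb : ∀ γ ∈ Ee, b ≤ ∑ j, γ j * ov w (z j)) :
    b ≤ ov w (∑ γ ∈ Ee, cc γ • ∏ j, z j ^ γ j) := by
  have h1 : (b : WithTop ℤ) ≤ w (∑ γ ∈ Ee, cc γ • ∏ j, z j ^ γ j) := by
    refine AddValuation.map_le_sum w fun γ hγ => ?_
    by_cases h0 : cc γ = 0
    · rw [h0, zero_smul, AddValuation.map_zero]; exact le_top
    · have h2 : (∏ j, z j ^ γ j) ≠ 0 := Finset.prod_ne_zero_iff.2 fun j _ => zpow_ne_zero _ (hz j)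
      rw [Algebra.smul_def, AddValuation.map_mul, hc _ h0, zero_add, ← coe_ov w h2,
        ov_prod _ _ fun j _ => zpow_ne_zero _ (hz j)]
      have h3 : ∑ j, ov w (z j ^ γ j) = ∑ j, γ j * ov w (z j) :=
        Finset.sum_congr rfl fun j _ => ov_zpow w (hz j) _
      rw [h3]
      exact_mod_cast hb γ hγ
  rw [← coe_ov w hS] at h1
  exact_mod_cast h1

/-- The lower bound for the section. -/
theorem eff_low {k : ℕ} {L : Type} [Field L] [Algebra ℂ L] {w : AddValuation L (WithTop ℤ)}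
    (hc : ∀ c : ℂ, c ≠ 0 → w (algebraMap ℂ L c) = 0) {z : Fin k → L} (hz : ∀ j, z j ≠ 0)
    {c : Fin k → ℚ} (hcpos : ∀ j, 0 < c j) (ha : ∀ j, 0 ≤ ov w (z j)) {N' Q₀ : ℕ} {C η : ℝ}
    (hη : 0 < η) (hC : C ≤ N' * Q₀ * η) {M Ls : Finset (Fin k → ℤ)}
    (hL : ∀ s ∈ Ls, ∀ j, -C * (c j : ℝ) ≤ s j)
    (hle : ∀ μ ∈ M, ∀ j, (μ j : ℝ) * ov w (z j) ≤ Q₀ * (1 - η) * c j * ov w (z j))
    {Ee : Finset (Fin k → ℤ)}
    (hEe : ∀ γ ∈ Ee, ∃ μ ∈ M, (γ = fun j => -(N' : ℤ) * μ j) ∨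
      ∃ s ∈ Ls, γ = fun j => -(N' : ℤ) * μ j + s j) {cc : (Fin k → ℤ) → ℂ}
    (hS0 : (∑ γ ∈ Ee, cc γ • ∏ j, z j ^ γ j) ≠ 0) :
    -((N' : ℝ) * Q₀ * ∑ j, (c j : ℝ) * ov w (z j)) ≤
      ((ov w (∑ γ ∈ Ee, cc γ • ∏ j, z j ^ γ j) : ℤ) : ℝ) := by
  set σ : ℝ := ∑ j, (c j : ℝ) * ov w (z j) with hσ
  have hσ0 : 0 ≤ σ := Finset.sum_nonneg fun j _ => mul_nonneg
    (by exact_mod_cast (hcpos j).le) (by exact_mod_cast ha _)
  have hNR : (0 : ℝ) ≤ N' := Nat.cast_nonneg _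
  have h8 : ∀ μ ∈ M, ((∑ j, μ j * ov w (z j) : ℤ) : ℝ) ≤ Q₀ * (1 - η) * σ := by
    intro μ hμ
    push_cast
    rw [hσ, Finset.mul_sum]
    refine Finset.sum_le_sum fun j _ => ?_
    rw [← mul_assoc]
    exact hle μ hμ j
  have h9 : ∀ s ∈ Ls, -(N' * Q₀ * η * σ) ≤ ((∑ j, s j * ov w (z j) : ℤ) : ℝ) := by
    intro s hs
    push_cast
    have h11 : ∑ j, -(N' * Q₀ * η : ℝ) * ((c j : ℝ) * ov w (z j)) ≤
        ∑ j, (s j : ℝ) * ov w (z j) := by
      refine Finset.sum_le_sum fun j _ => ?_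
      have h12 := hL s hs j
      have h13 : (0 : ℝ) ≤ ov w (z j) := by exact_mod_cast ha _
      have h14 : (0 : ℝ) < c j := by exact_mod_cast hcpos j
      have h15 : -(N' * Q₀ * η : ℝ) * c j ≤ s j := by
        refine le_trans ?_ h12
        exact mul_le_mul_of_nonneg_right (neg_le_neg hC) h14.le
      calc -(N' * Q₀ * η : ℝ) * ((c j : ℝ) * ov w (z j))
          = (-(N' * Q₀ * η : ℝ) * c j) * ov w (z j) := by ring
        _ ≤ _ := mul_le_mul_of_nonneg_right h15 h13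
    rw [← Finset.mul_sum, ← hσ] at h11
    linarith
  have h10 : ∀ γ ∈ Ee, ⌈-((N' : ℝ) * Q₀ * σ)⌉ ≤ ∑ j, γ j * ov w (z j) := by
    intro γ hγ
    rw [Int.ceil_le]
    obtain ⟨μ, hμ, h11⟩ := hEe γ hγ
    have h12 := h8 μ hμ
    have h17 : (0 : ℝ) ≤ N' * Q₀ * η * σ :=
      mul_nonneg (mul_nonneg (mul_nonneg hNR (Nat.cast_nonneg _)) hη.le) hσ0
    have h16 : (N' : ℝ) * (Q₀ * (1 - η) * σ) = N' * Q₀ * σ - N' * Q₀ * η * σ := by ring
    rcases h11 with rfl | ⟨s, hs, rfl⟩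
    · have h13 : ∑ j, -(N' : ℤ) * μ j * ov w (z j) =
          -(N' : ℤ) * ∑ j, μ j * ov w (z j) := by
        rw [Finset.mul_sum]
        exact Finset.sum_congr rfl fun j _ => by ring
      rw [h13, Int.cast_mul, Int.cast_neg, Int.cast_natCast]
      generalize ((∑ j, μ j * ov w (z j) : ℤ) : ℝ) = SM at h12 ⊢
      have h15 := mul_le_mul_of_nonneg_left h12 hNR
      rw [h16] at h15
      have h18 : -(N' : ℝ) * SM = -(N' * SM) := by ring
      rw [h18]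
      linarith only [h15, h17]
    · have h13 : ∑ j, (-(N' : ℤ) * μ j + s j) * ov w (z j) =
          -(N' : ℤ) * (∑ j, μ j * ov w (z j)) + ∑ j, s j * ov w (z j) := by
        rw [Finset.mul_sum, ← Finset.sum_add_distrib]
        exact Finset.sum_congr rfl fun j _ => by ring
      have h14 := h9 s hs
      rw [h13, Int.cast_add, Int.cast_mul, Int.cast_neg, Int.cast_natCast]
      generalize ((∑ j, μ j * ov w (z j) : ℤ) : ℝ) = SM at h12 ⊢
      generalize ((∑ j, s j * ov w (z j) : ℤ) : ℝ) = SN at h14 ⊢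
      have h15 := mul_le_mul_of_nonneg_left h12 hNR
      rw [h16] at h15
      have h18 : -(N' : ℝ) * SM = -(N' * SM) := by ring
      rw [h18]
      linarith only [h15, h14]
  have h11 := low_sum hc hz hS0 h10
  refine le_trans (Int.le_ceil _) ?_
  exact_mod_cast h11

/-- A section which is negative on a given weight. -/
theorem neg_exists {k : ℕ} {S : Finset (Fin k → ℕ)} {Ls : List (ℕ × (Fin 0 ⊕ Fin k → ℤ))}
    {a : Fin k → ℤ} (ha : ∀ j, 0 ≤ a j) (ha0 : a ≠ 0) (hLs : ∀ s ∈ Ls, s.1 = 0)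
    (hL2 : ∀ x : Fin 0 ⊕ Fin k → ℝ, InCone S x → x ≠ 0 → ∃ s ∈ Ls, ∀ γ : ℝ,
        (∀ μ ∈ S, γ ≤ ∑ j, μ j * x (Sum.inr j)) →
          s.1 * (γ - ∑ l, x (Sum.inl l)) + ∑ i, (s.2 i) * x i < 0) :
    ∃ s ∈ (Ls.toFinset.image fun s => fun j => s.2 (Sum.inr j) : Finset (Fin k → ℤ)),
      ∑ j, s j * a j ≤ -1 := by
  classical
  have h1 := hL2 (Sum.elim (fun l : Fin 0 => l.elim0) (fun j => (a j : ℝ))) ?_ ?_
  · obtain ⟨s, hs, h2⟩ := h1
    refine ⟨fun j => s.2 (Sum.inr j), Finset.mem_image.2 ⟨s, List.mem_toFinset.2 hs, rfl⟩, ?_⟩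
    have h3 := h2 0 (by
      intro μ _
      refine Finset.sum_nonneg fun j _ => mul_nonneg (by positivity) ?_
      simp only [Sum.elim_inr]
      exact_mod_cast ha j)
    rw [hLs s hs, Fintype.sum_sum_type] at h3
    simp only [Nat.cast_zero, zero_mul, Finset.univ_eq_empty, Finset.sum_empty, zero_add,
      Sum.elim_inr] at h3
    have h4 : ((∑ j, s.2 (Sum.inr j) * a j : ℤ) : ℝ) < 0 := by
      push_cast
      exact h3
    have h5 : (∑ j, s.2 (Sum.inr j) * a j : ℤ) < 0 := by exact_mod_cast h4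
    show ∑ j, s.2 (Sum.inr j) * a j ≤ -1
    omega
  · refine ⟨?_, ?_⟩
    · rintro (l | j)
      · exact l.elim0
      · simp only [Sum.elim_inr]
        exact_mod_cast ha j
    · intro μ _
      have h2 : ∑ l : Fin 0, (Sum.elim (fun l : Fin 0 => (l.elim0 : ℝ))
          (fun j => (a j : ℝ))) (Sum.inl l) = 0 := by simp
      rw [h2]
      unfold mdot
      refine Finset.sum_nonneg fun j _ => mul_nonneg (by positivity) ?_
      simp only [Sum.elim_inr]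
      exact_mod_cast ha j
  · intro h0
    apply ha0
    funext j
    have h2 := congrFun h0 (Sum.inr j)
    simp only [Sum.elim_inr, Pi.zero_apply] at h2
    exact_mod_cast h2

/-- The klt inequality. -/
theorem klt_arith {k : ℕ} {M Ls Ee : Finset (Fin k → ℤ)} (hM : M.Nonempty) {N' Q₀ : ℕ}
    (hN' : 2 ≤ N') (hQ₀ : 0 < Q₀)
    (hEe : ∀ μ ∈ M, ∀ s ∈ Ls, (fun j => -(N' : ℤ) * μ j + s j) ∈ Ee) {a : Fin k → ℤ}
    (hneg : a ≠ 0 → ∃ s ∈ Ls, ∑ j, s j * a j ≤ -1) {γ₀ : Fin k → ℤ}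
    (hmin : ∀ γ ∈ Ee, ∑ j, γ₀ j * a j ≤ ∑ j, γ j * a j) {F S T : ℤ}
    (hlow : ∑ j, γ₀ j * a j ≤ S)
    (hkey : F + Q₀ * (S - ∑ j, γ₀ j * a j) ≤ Q₀ * T + maxP M a)
    (hzero : a = 0 → F < Q₀ * T) : N' * F + S < N' * (Q₀ * T) := by
  set exc : ℤ := S - ∑ j, γ₀ j * a j with hexc
  have hexc0 : 0 ≤ exc := by rw [hexc]; linarith only [hlow]
  have hSe : S = exc + ∑ j, γ₀ j * a j := by rw [hexc]; ring
  have hN'Z : (2 : ℤ) ≤ N' := by exact_mod_cast hN'
  have hQZ : (1 : ℤ) ≤ Q₀ := by exact_mod_cast hQ₀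
  have hNQ : (2 : ℤ) ≤ N' * Q₀ := by nlinarith
  rw [hSe]
  have h5 : (N' : ℤ) * (F + Q₀ * exc) ≤ N' * (Q₀ * T + maxP M a) :=
    mul_le_mul_of_nonneg_left hkey (by linarith)
  have h10 : (N' : ℤ) * (F + Q₀ * exc) = N' * F + N' * Q₀ * exc := by ring
  rw [h10] at h5
  by_cases haz : a = 0
  · have h6 : maxP M a = 0 := by
      obtain ⟨μ, -, hμ⟩ := exists_maxP hM a
      rw [hμ, haz]; simp
    have h7 : ∑ j, γ₀ j * a j = 0 := by rw [haz]; simp
    rw [h7, add_zero]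
    rw [h6, add_zero] at h5
    rcases hexc0.eq_or_lt with h8 | h8
    · rw [← h8, add_zero]
      have h16 := mul_lt_mul_of_pos_left (hzero haz) (by linarith : (0 : ℤ) < N')
      linarith only [h16]
    · have h9 : exc < N' * Q₀ * exc := by nlinarith
      linarith only [h5, h9]
  · obtain ⟨s, hs, hsa⟩ := hneg haz
    obtain ⟨μ, hμ, hμa⟩ := exists_maxP hM a
    have h6 := hmin _ (hEe μ hμ s hs)
    have h7 : ∑ j, (-(N' : ℤ) * μ j + s j) * a j =
        -(N' : ℤ) * maxP M a + ∑ j, s j * a j := by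
      rw [hμa, Finset.mul_sum, ← Finset.sum_add_distrib]
      exact Finset.sum_congr rfl fun j _ => by ring
    have h8 : ∑ j, γ₀ j * a j ≤ -(N' : ℤ) * maxP M a + ∑ j, s j * a j := by
      rw [← h7]; exact h6
    have h9 : exc ≤ N' * Q₀ * exc := by nlinarith
    have h11 : (N' : ℤ) * (Q₀ * T + maxP M a) = N' * (Q₀ * T) + N' * maxP M a := by ring
    rw [h11] at h5
    linarith only [h5, h9, h8, hsa]

/-- **The engine.** -/
theorem engineL (k : ℕ) (hd : 0 < 0 + k) (J : ℕ) : ∃ c₀ : ℕ, 0 < c₀ ∧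
    ∀ ε : ℝ, 0 < ε → ∀ η : ℝ, 0 < η → ∀ N' Q₀ : ℕ, 0 < Q₀ →
      (c₀ : ℝ) * (1 + 1 / (Q₀ * (η * ε))) ≤ N' →
    ∀ (K L : Type) [Field K] [Field L] [Algebra ℂ K] [Algebra ℂ L] [Algebra K L]
      [IsScalarTower ℂ K L] (t : Fin 0 ⊕ Fin k → L) (g : MvPolynomial (Fin k) ℂ) (x0 : L)
      (G G0 : Subgroup (L ≃ₐ[ℂ] L)) (A : Subalgebra ℂ K), EngineData 0 k J t g x0 G G0 A →
    ∀ (ω : ⋀[K]^(0 + k) (Ω[K⁄ℂ])) (h : L), ω ≠ 0 → h ≠ 0 → IsPullback ω (h • logForm t) →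
      (∀ τ ∈ G0, τ h = h) →
    ∀ (B : QDivisor A) (c : Fin k → ℚ) (r : ℕ) (c' : Fin k → ℤ) (ψ : K) (χ : ℂ)
      (M : Finset (Fin k → ℤ)) (f E : L), 0 < r →
      (∀ j, (c' j : ℚ) = (r * Q₀ : ℕ) * c j) → χ ≠ 0 →
      algebraMap K L ψ
        = χ • (h ^ (r * Q₀) * (∏ j, t (Sum.inr j) ^ (-c' j)) * f ^ r) →
      (∀ (u : AddValuation K (WithTop ℤ)) (p : Ideal A) (m : ℤ) (w : AddValuation L (WithTop ℤ))
        (e : ℕ), IsPrimeDivisorOn A (0 + k) u p → FormOrder (0 + k) u ω m → 0 < e →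
        (∃ f, w f = 1) → (∀ f : K, w (algebraMap K L f) = e • u f) →
        (e : ℚ) * (m + B.coeff p)
          = ov w h - ∑ j, c j * ov w (t (Sum.inr j)) + (ov w f : ℚ) / Q₀) →
      LData k t x0 G0 c Q₀ η M f E →
      IsEpsLC (0 + k) ω B ε →
      StrongComplF (0 + k) ω B E (N' * Q₀ * J.factorial) := by
  classical
  obtain ⟨F₀, hF₀, hCF⟩ := sections_exist_lin 0 k
  obtain ⟨N0, hN0'⟩ := exists_nat_ge F₀
  refine ⟨2 + N0, by omega, ?_⟩
  intro ε hε η hη N' Q₀ hQ₀ hNc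
  have hC := hCF ε hε
  set C : ℝ := F₀ / ε with hCdef
  have hC0 : 0 ≤ C := div_nonneg hF₀ hε.le
  have hQR : (0 : ℝ) < Q₀ := by exact_mod_cast hQ₀
  have hQηε : (0 : ℝ) < Q₀ * (η * ε) := mul_pos hQR (mul_pos hη hε)
  have hε1 : 0 < 1 / (Q₀ * (η * ε)) := by positivity
  have hNbig : 2 ≤ N' := by
    have h1 : ((2 + N0 : ℕ) : ℝ) ≤ N' := by
      refine le_trans ?_ hNc
      have : (0 : ℝ) ≤ ((2 + N0 : ℕ) : ℝ) := Nat.cast_nonneg _
      nlinarith
    have h2 : 2 + N0 ≤ N' := by exact_mod_cast h1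
    omega
  have hN0 : C ≤ N' * Q₀ * η := by
    have h3 : F₀ * (1 / (Q₀ * (η * ε))) ≤ N' := by
      refine le_trans ?_ hNc
      have h2 : F₀ * (1 / (Q₀ * (η * ε))) ≤ N0 * (1 / (Q₀ * (η * ε))) :=
        mul_le_mul_of_nonneg_right hN0' hε1.le
      refine h2.trans ?_
      push_cast
      have h4 : (0 : ℝ) ≤ N0 := Nat.cast_nonneg _
      nlinarith
    have h4 := mul_le_mul_of_nonneg_right h3 (mul_pos hQR hη).le
    have h5 : F₀ * (1 / (Q₀ * (η * ε))) * (Q₀ * η) = C := by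
      rw [hCdef]
      field_simp
    rw [h5] at h4
    linarith only [h4]
  intro K L _ _ _ _ _ _ t g x0 G G0 A H ω h hω hh hpull hhG B c r c' ψ χ M f E hr hc' hχ hψ
    hcrep HF hlc
  haveI := H.isAlgebraic
  haveI := H.essL
  haveI := H.essK
  haveI := H.finDim
  haveI : Finite G := H.fin
  haveI : Finite G0 := Set.Finite.subset (Set.toFinite (G : Set (L ≃ₐ[ℂ] L))) H.le
  haveI : CharZero K := charZero_of_injective_algebraMap (algebraMap ℂ K).injective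
  have ht0 := H.coords.ne_zero
  have hr0 : 0 < Nat.card G0 := Nat.card_pos
  have hf0 := HF.f_ne
  have hSne : (supp g).Nonempty := by
    obtain ⟨n, hn⟩ := support_nonempty.2 H.g_ne
    exact ⟨_, Finset.mem_image_of_mem _ hn⟩
  -- the global equation
  have hT0 : ∀ j : Fin k, t (Sum.inr j) ^ (-c' j) ≠ 0 := fun j => zpow_ne_zero _ (H.coords.ne_zero _)
  have hT1 : ∏ j, t (Sum.inr j) ^ (-c' j) ≠ 0 := Finset.prod_ne_zero_iff.2 fun j _ => hT0 j
  have hprod0 : h ^ (r * Q₀) * (∏ j, t (Sum.inr j) ^ (-c' j)) * f ^ r ≠ 0 :=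
    mul_ne_zero (mul_ne_zero (pow_ne_zero _ hh) hT1) (pow_ne_zero _ hf0)
  have hψ0 : ψ ≠ 0 := by
    rintro rfl
    rw [map_zero, Algebra.smul_def] at hψ
    exact (mul_ne_zero ((map_ne_zero _).2 hχ) hprod0) hψ.symm
  have hrr : 0 < r * Q₀ := Nat.mul_pos hr hQ₀
  have hQQ : (Q₀ : ℚ) ≠ 0 := by exact_mod_cast hQ₀.ne'
  have hrQ : ((r * Q₀ : ℕ) : ℚ) ≠ 0 := by exact_mod_cast hrr.ne'
  have hval : ∀ (w1 : AddValuation L (WithTop ℤ)) (v1 : AddValuation K (WithTop ℤ)) (e1 : ℕ),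
      IsDivisorial (0 + k) v1 →
      (∀ f : K, w1 (algebraMap K L f) = e1 • v1 f) →
      (e1 : ℚ) * ov v1 ψ = (r * Q₀ : ℕ) * (ov w1 h - ∑ j, c j * ov w1 (t (Sum.inr j))
        + (ov w1 f : ℚ) / Q₀) := by
    intro w1 v1 e1 hv1 hvw1
    have h1 : ov w1 (algebraMap K L ψ) = e1 * ov v1 ψ := by
      apply ov_eq_of
      rw [hvw1, ← coe_ov v1 hψ0, ← WithTop.coe_nsmul]
      simp
    have h2 : ov w1 (algebraMap ℂ L χ) = 0 := by
      apply ov_eq_of
      rw [IsScalarTower.algebraMap_apply ℂ K L, hvw1, hv1.const χ hχ, nsmul_zero]; rfl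
    have h3 : ov w1 (algebraMap K L ψ)
        = (r * Q₀ : ℕ) * ov w1 h + ∑ j, (-c' j) * ov w1 (t (Sum.inr j)) + r * ov w1 f := by
      rw [hψ, Algebra.smul_def, ov_mul w1 ((map_ne_zero _).2 hχ) hprod0, h2, zero_add,
        ov_mul w1 (mul_ne_zero (pow_ne_zero _ hh) hT1) (pow_ne_zero _ hf0),
        ov_mul w1 (pow_ne_zero _ hh) hT1,
        ov_pow w1 hh, ov_pow w1 hf0, ov_prod _ _ fun j _ => hT0 j]
      congr 2
      exact Finset.sum_congr rfl fun j _ => ov_zpow w1 (H.coords.ne_zero _) _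
    have h4 : ((ov w1 (algebraMap K L ψ) : ℤ) : ℚ) = e1 * ov v1 ψ := by rw [h1]; push_cast; rfl
    rw [← h4, h3]
    have h5 : ∑ j, c j * (ov w1 (t (Sum.inr j)) : ℚ) * (r * Q₀ : ℕ)
        = ∑ j, (c' j : ℚ) * ov w1 (t (Sum.inr j)) := by
      apply Finset.sum_congr rfl
      intro j _
      rw [hc']; ring
    rw [← Finset.sum_mul] at h5
    have h6 : ((r * Q₀ : ℕ) : ℚ) * ((ov w1 f : ℚ) / Q₀) = r * ov w1 f := by
      push_cast
      field_simp
    rw [mul_add, mul_sub, h6, mul_comm ((r * Q₀ : ℕ) : ℚ) (∑ j, c j * (ov w1 (t (Sum.inr j)) : ℚ)),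
      h5]
    push_cast
    simp only [neg_mul, Finset.sum_neg_distrib]
    ring
  have hloc : ∀ p0 : Ideal A, IsLocalEquation (0 + k) ω B p0 (r * Q₀) ψ := by
    intro p0
    refine ⟨hrr, hψ0, ?_⟩
    intro u p m k' hu _ hm hk'
    obtain ⟨wu, eu, heu, hwu1, hwu2⟩ := exists_extension (L := L) u hu.1.normalized
    have h1 := hcrep u p m wu eu hu hm heu hwu1 hwu2
    have h2 := hval wu u eu hu.1 hwu2
    rw [ov_eq_of u hk', ← h1] at h2
    have h3 : (eu : ℚ) ≠ 0 := by exact_mod_cast heu.ne'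
    have h4 : (eu : ℚ) * k' = eu * ((r * Q₀ : ℕ) * (m + B.coeff p)) := by rw [h2]; ring
    exact mul_left_cancel₀ h3 h4
  -- common facts on the twisted valuations
  have htw : ∀ (v : AddValuation K (WithTop ℤ)) (w : AddValuation L (WithTop ℤ)) (e : ℕ),
      IsOver A v → (∀ f : K, w (algebraMap K L f) = e • v f) →
      ∀ τ ∈ G, (∀ i, 0 ≤ (w.comap (τ : L →+* L)) (t i)) ∧ 0 ≤ (w.comap (τ : L →+* L)) x0 := by
    intro v w e hover hvw τ hτ
    have hnn : ∀ a ∈ A, 0 ≤ (w.comap (τ : L →+* L)) (algebraMap K L a) := by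
      intro a ha
      rw [H.twist hvw hτ]
      exact nsmul_nonneg (hover ⟨a, ha⟩) e
    exact ⟨fun i => nonneg_of_integral hnn (H.int i), nonneg_of_integral hnn H.int0⟩
  have hover1 : ∀ (v : AddValuation K (WithTop ℤ)) (w : AddValuation L (WithTop ℤ)) (e : ℕ),
      IsOver A v → (∀ f : K, w (algebraMap K L f) = e • v f) →
      (∀ i, 0 ≤ w (t i)) ∧ 0 ≤ w x0 := by
    intro v w e hover hvw
    have hnn : ∀ a ∈ A, 0 ≤ w (algebraMap K L a) := by
      intro a ha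
      rw [hvw]
      exact nsmul_nonneg (hover ⟨a, ha⟩) e
    exact ⟨fun i => nonneg_of_integral hnn (H.int i), nonneg_of_integral hnn H.int0⟩
  -- the log discrepancies
  have hdisc : ∀ (v : AddValuation K (WithTop ℤ)) (w : AddValuation L (WithTop ℤ)) (e : ℕ) (m : ℤ),
      IsDivisorial (0 + k) v → IsOver A v → FormOrder (0 + k) v ω m → 0 < e → (∃ f, w f = 1) →
      (∀ f : K, w (algebraMap K L f) = e • v f) →
      (e : ℝ) * ε ≤ e * (1 + m) - ov w h + (∑ j, (c j : ℝ) * ov w (t (Sum.inr j)))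
        - (ov w f : ℝ) / Q₀ := by
    intro v w e m hv hover hm he hw1 hvw
    have h2 := hlc.2 v (1 + m - (ov v ψ : ℚ) / (r * Q₀ : ℕ)) hv hover
      ⟨centreIdeal A v hover, r * Q₀, ψ, m, ov v ψ, fun _ => Iff.rfl, hloc _, hm,
        (coe_ov v hψ0).symm, rfl⟩
    have h3 := hval w v e hv hvw
    have h5 : (e : ℚ) * (1 + m - (ov v ψ : ℚ) / (r * Q₀ : ℕ))
        = e * (1 + m) - (ov w h - ∑ j, c j * ov w (t (Sum.inr j)) + (ov w f : ℚ) / Q₀) := by
      rw [mul_sub, ← mul_div_assoc, h3, mul_div_cancel_left₀ _ hrQ]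
    have h6 : (e : ℝ) * ε ≤ ((e * (1 + m)
        - (ov w h - ∑ j, c j * ov w (t (Sum.inr j)) + (ov w f : ℚ) / Q₀) : ℚ) : ℝ) := by
      rw [← h5]
      push_cast
      have h7 : (0 : ℝ) ≤ e := Nat.cast_nonneg _
      have h8 := mul_le_mul_of_nonneg_left h2 h7
      push_cast at h8
      exact h8
    refine h6.trans ?_
    push_cast
    linarith
  -- the lower bound of the toric log discrepancies
  have hpsi : ∀ x : Fin 0 ⊕ Fin k → ℝ, InCone (supp g) x →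
      (∀ u ∈ invLattice t H.coords.ne_zero G0, ∃ z : ℤ, ∑ i, x i * u i = z) → x ≠ 0 →
      ε ≤ ∑ j, (c j : ℝ) * x (Sum.inr j) := by
    intro x hx hxM hx0
    have h1 := H207.psi_bound H hd hε hω hh hpull (ι := Unit) (fun _ => c) (by
      intro v w e m hv hover hm he hw1 hvw
      have h6 := hdisc v w e m hv hover hm he hw1 hvw
      have hdiv := isDivisorial_of_ext hv hw1 hvw
      have h4 : 0 ≤ ov w f := (nonneg_iff w hf0).1
        (HF.nonneg w hdiv.const (hover1 v w e hover hvw).1 (hover1 v w e hover hvw).2)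
      obtain ⟨a, ha⟩ := H207.exists_PsiF (fun _ : Unit => c)
        (fun j => (ov w (t (Sum.inr j)) : ℝ))
      rw [ha]
      have h7 : (0 : ℝ) ≤ (ov w f : ℝ) / Q₀ := div_nonneg (by exact_mod_cast h4) (by positivity)
      refine h6.trans ?_
      linarith) x hx hxM hx0
    obtain ⟨a, ha⟩ := H207.exists_PsiF (fun _ : Unit => c) (fun j => x (Sum.inr j))
    rw [ha] at h1
    exact h1
  -- positivity of the coefficients
  have hcpos : ∀ j, 0 < c j := by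
    intro j
    let x : Fin 0 ⊕ Fin k → ℝ := Pi.single (Sum.inr j) (Nat.card G0 : ℝ)
    have h1 := hpsi x ?_ ?_ ?_
    · have h2 : ∑ j', (c j' : ℝ) * x (Sum.inr j') = c j * Nat.card G0 := by
        rw [Finset.sum_eq_single j]
        · simp only [Pi.single_eq_same, x]
        · intro j' _ hj'
          have : (Sum.inr j' : Fin 0 ⊕ Fin k) ≠ Sum.inr j := fun h => hj' (Sum.inr_injective h)
          simp only [Pi.single_eq_of_ne this, mul_zero, x]
        · simp only [mem_univ, not_true_eq_false, mul_eq_zero, Rat.cast_eq_zero, IsEmpty.forall_iff]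
      rw [h2] at h1
      have h3 : (0 : ℝ) < Nat.card G0 := by exact_mod_cast hr0
      have h4 : (0 : ℝ) < c j := by
        by_contra hcon
        push Not at hcon
        have : (c j : ℝ) * Nat.card G0 ≤ 0 := mul_nonpos_of_nonpos_of_nonneg hcon h3.le
        linarith only [hε, h1, this]
      exact_mod_cast h4
    · refine ⟨?_, ?_⟩
      · intro i
        by_cases hi : i = Sum.inr j
        · subst hi; simp only [Pi.single_eq_same, Nat.cast_nonneg, x]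
        · simp only [Pi.single_eq_of_ne hi, Std.le_refl, x]
      · intro μ _
        have h1 : ∑ l : Fin 0, x (Sum.inl l) = 0 := by
          apply Finset.sum_eq_zero
          intro l _
          simp only [ne_eq, reduceCtorEq, not_false_eq_true, Pi.single_eq_of_ne, x]
        rw [h1]
        unfold mdot
        apply Finset.sum_nonneg
        intro j' _
        apply mul_nonneg (by (clear * -; positivity))
        by_cases hi : (Sum.inr j' : Fin 0 ⊕ Fin k) = Sum.inr j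
        · rw [hi]; simp only [Pi.single_eq_same, Nat.cast_nonneg, x]
        · simp only [Pi.single_eq_of_ne hi, Std.le_refl, x]
    · intro u _
      refine ⟨Nat.card G0 * u (Sum.inr j), ?_⟩
      rw [Finset.sum_eq_single (Sum.inr j)]
      · simp only [Pi.single_eq_same, Int.cast_mul, Int.cast_natCast, x]
      · intro i _ hi
        simp only [Pi.single_eq_of_ne hi, zero_mul, x]
      · simp only [mem_univ, not_true_eq_false, mul_eq_zero, Int.cast_eq_zero, IsEmpty.forall_iff]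
    · intro h0
      have := congrFun h0 (Sum.inr j)
      simp only [x, Pi.single_eq_same, Pi.zero_apply] at this
      exact hr0.ne' (by exact_mod_cast this)
  obtain ⟨Ls, -, hL1, hL2⟩ := hC (invLattice t ht0 G0) (Nat.card G0) hr0
    (fun u => H.card_smul_mem u) (supp g) hSne H.supp_mem (fun j => (c j : ℝ))
    (fun j => by exact_mod_cast hcpos j) hpsi
  have hLs : ∀ s ∈ Ls, s.1 = 0 := by
    intro s hs
    rcases (hL1 s hs).2.1 with h | ⟨l, -⟩
    · exact h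
    · exact l.elim0
  have hLinv : ∀ s ∈ Ls, s.2 ∈ invLattice t ht0 G0 := by
    intro s hs
    obtain ⟨μ, hμ⟩ := hSne
    have h1 := (hL1 s hs).2.2.1 μ hμ
    rw [hLs s hs] at h1
    simpa using h1
  let Lz : Finset (Fin k → ℤ) := Ls.toFinset.image fun s => fun j => s.2 (Sum.inr j)
  have hLz : ∀ s ∈ Lz, ∀ j, -C * (c j : ℝ) ≤ s j := by
    intro s hs j
    obtain ⟨s', hs', rfl⟩ := Finset.mem_image.1 hs
    exact (hL1 s' (List.mem_toFinset.1 hs')).2.2.2 j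
  have hLzinv : ∀ s ∈ Lz, ∀ τ ∈ G0, τ (∏ j, t (Sum.inr j) ^ s j) = ∏ j, t (Sum.inr j) ^ s j := by
    intro s hs τ hτ
    obtain ⟨s', hs', rfl⟩ := Finset.mem_image.1 hs
    have h1 := hLinv s' (List.mem_toFinset.1 hs') τ hτ
    unfold monoT at h1
    rw [Fintype.prod_sum_type, Fin.prod_univ_zero, one_mul] at h1
    exact h1
  have hLneg : ∀ a : Fin k → ℤ, (∀ j, 0 ≤ a j) → a ≠ 0 → ∃ s ∈ Lz, ∑ j, s j * a j ≤ -1 :=
    fun a ha ha0 => neg_exists ha ha0 hLs hL2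
  -- the exponents
  let Ee : Finset (Fin k → ℤ) := M.biUnion fun μ =>
    insert (fun j => -(N' : ℤ) * μ j) (Lz.image fun s => fun j => -(N' : ℤ) * μ j + s j)
  have hEe : ∀ γ ∈ Ee, ∃ μ ∈ M, (γ = fun j => -(N' : ℤ) * μ j) ∨
      ∃ s ∈ Lz, γ = fun j => -(N' : ℤ) * μ j + s j := by
    intro γ hγ
    obtain ⟨μ, hμ, h1⟩ := Finset.mem_biUnion.1 hγ
    refine ⟨μ, hμ, ?_⟩
    rcases Finset.mem_insert.1 h1 with h1 | h1
    · exact Or.inl h1
    · obtain ⟨s, hs, rfl⟩ := Finset.mem_image.1 h1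
      exact Or.inr ⟨s, hs, rfl⟩
  have hEe2 : ∀ μ ∈ M, ∀ s ∈ Lz, (fun j => -(N' : ℤ) * μ j + s j) ∈ Ee := by
    intro μ hμ s hs
    exact Finset.mem_biUnion.2 ⟨μ, hμ, Finset.mem_insert_of_mem (Finset.mem_image_of_mem _ hs)⟩
  have hEne : Ee.Nonempty := by
    obtain ⟨μ, hμ⟩ := HF.ne
    exact ⟨_, Finset.mem_biUnion.2 ⟨μ, hμ, Finset.mem_insert_self _ _⟩⟩
  obtain ⟨cc, hS0, hbert⟩ := HF.bert Ee hEne
  set S : L := ∑ γ ∈ Ee, cc γ • ∏ j, t (Sum.inr j) ^ γ j with hSdef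
  let F : L := h ^ (N' * Q₀) * (f ^ N' * S)
  have hF0 : F ≠ 0 := mul_ne_zero (pow_ne_zero _ hh) (mul_ne_zero (pow_ne_zero _ hf0) hS0)
  have hterm : ∀ γ ∈ Ee, ∀ τ ∈ G0, τ (f ^ N' * ∏ j, t (Sum.inr j) ^ γ j) =
      f ^ N' * ∏ j, t (Sum.inr j) ^ γ j := by
    intro γ hγ τ hτ
    obtain ⟨μ, hμ, h1⟩ := hEe γ hγ
    have h2 : f ^ N' * ∏ j, t (Sum.inr j) ^ (-(N' : ℤ) * μ j) =
        (f * (∏ j, t (Sum.inr j) ^ μ j)⁻¹) ^ N' := by
      rw [mul_pow, inv_pow, ← Finset.prod_pow, ← Finset.prod_inv_distrib]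
      congr 1
      refine Finset.prod_congr rfl fun j _ => ?_
      rw [neg_mul, zpow_neg, mul_comm, zpow_mul, zpow_natCast]
    rcases h1 with rfl | ⟨s, hs, rfl⟩
    · rw [h2, map_pow, HF.inv μ hμ τ hτ]
    · have h3 : f ^ N' * ∏ j, t (Sum.inr j) ^ (-(N' : ℤ) * μ j + s j) =
          (f * (∏ j, t (Sum.inr j) ^ μ j)⁻¹) ^ N' * ∏ j, t (Sum.inr j) ^ s j := by
        rw [← h2, mul_assoc, ← Finset.prod_mul_distrib]
        congr 1
        exact Finset.prod_congr rfl fun j _ => zpow_add₀ (ht0 _) _ _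
      rw [h3, map_mul, map_pow, HF.inv μ hμ τ hτ, hLzinv s hs τ hτ]
  have hFinv : ∀ τ ∈ G0, τ F = F := by
    intro τ hτ
    simp only [F]
    rw [map_mul, map_pow, hhG τ hτ]
    congr 1
    rw [hSdef, Finset.mul_sum, map_sum]
    refine Finset.sum_congr rfl fun γ hγ => ?_
    rw [mul_smul_comm, map_smul, hterm γ hγ τ hτ]
  have hFov : ∀ w : AddValuation L (WithTop ℤ),
      ov w F = (N' * Q₀ : ℕ) * ov w h + (N' * ov w f + ov w S) := by
    intro w
    simp only [F]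
    rw [ov_mul w (pow_ne_zero _ hh) (mul_ne_zero (pow_ne_zero _ hf0) hS0),
      ov_mul w (pow_ne_zero _ hf0) hS0, ov_pow w hh, ov_pow w hf0]
  obtain ⟨φ, hφ0, hφ⟩ := H.exists_norm F hFinv hF0
  have hJpos : 0 < J.factorial := J.factorial_pos
  have hN'pos : 0 < N' := by omega
  have hnpos : (0 : ℚ) < ((N' * Q₀ * J.factorial : ℕ) : ℚ) := by
    have : 0 < N' * Q₀ * J.factorial := Nat.mul_pos (Nat.mul_pos hN'pos hQ₀) hJpos
    exact_mod_cast this
  refine ⟨r * Q₀, ψ, φ, hloc, hφ0, ?_, ?_⟩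
  · -- the complement is klt where `E ≠ 0`
    intro v m k' hv hover hE hm hk'
    obtain ⟨w, e, he, hw1, hvw⟩ := exists_extension (L := L) v hv.normalized
    have heQ : (0 : ℚ) < e := by exact_mod_cast he
    have hb : ∀ τ ∈ G, ov w (τ F) < (N' * Q₀ : ℕ) * (e * (1 + m)) := by
      intro τ hτ
      set w1 := w.comap (τ : L →+* L) with hw1def
      have hw1n := comap_normalized hw1 τ
      have hvw1 : ∀ f : K, w1 (algebraMap K L f) = e • v f := fun f => H.twist hvw hτ f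
      have hdiv := isDivisorial_of_ext hv hw1n hvw1
      obtain ⟨h1, h0⟩ := htw v w e hover hvw τ hτ
      have hf := formOrder_transfer hd H.trdegK H.trdegL hv hw1n he hvw1 hpull hm
      have hf2 := formOrder_smul' hd H.trdegL hdiv hf (inv_ne_zero hh)
      rw [smul_smul, inv_mul_cancel₀ hh, one_smul, ov_inv] at hf2
      set MM : ℤ := e * (1 + m) - 1 + -ov w1 h with hMM
      have hE1 := hE w1 e he hw1n hvw1
      obtain ⟨γ₀, hγ₀, hmin, hlow, hkey⟩ := hbert w1 MM hdiv h1 h0 hE1 hf2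
      have hds := hdisc v w1 e m hv hover hm he hw1n hvw1
      have ha0 : ∀ j, 0 ≤ ov w1 (t (Sum.inr j)) := fun j => (nonneg_iff w1 (ht0 _)).1 (h1 _)
      have h2 : ov w (τ F) = ov w1 F := rfl
      rw [h2, hFov]
      have h4 : ((N' * Q₀ : ℕ) : ℤ) * (e * (1 + m))
          = (N' * Q₀ : ℕ) * ov w1 h + (N' : ℤ) * (Q₀ * (1 + MM)) := by
        rw [hMM]; push_cast; ring
      rw [h4]
      have h5 := klt_arith HF.ne hNbig hQ₀ hEe2 (hLneg (fun j => ov w1 (t (Sum.inr j))) ha0)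
        hmin hlow hkey (by
          intro haz
          have h9 : ∑ j, (c j : ℝ) * ov w1 (t (Sum.inr j)) = 0 := by
            refine Finset.sum_eq_zero fun j _ => ?_
            have h10 : ov w1 (t (Sum.inr j)) = 0 := congrFun haz j
            rw [h10, Int.cast_zero, mul_zero]
          rw [h9, add_zero] at hds
          have h11 : (0 : ℝ) < e * ε := mul_pos (by exact_mod_cast he) hε
          have hQR : (0 : ℝ) < Q₀ := by exact_mod_cast hQ₀
          have h14 : (1 : ℝ) + MM = e * (1 + m) - ov w1 h := by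
            rw [hMM]; push_cast; ring
          have h13 : (ov w1 f : ℝ) / Q₀ < 1 + MM := by
            rw [h14]; linarith only [hds, h11]
          rw [div_lt_iff₀ hQR] at h13
          have h15 : (ov w1 f : ℝ) < ((Q₀ * (1 + MM) : ℤ) : ℝ) := by
            push_cast
            linarith only [h13]
          exact_mod_cast h15)
      linarith only [h5]
    have h1 := (hφ w v e hvw).2 _ hb
    rw [ov_eq_of v hk'] at h1
    have h2 : (e : ℚ) * k' < J.factorial * ((N' * Q₀ : ℕ) * (e * (1 + m))) := by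
      exact_mod_cast h1
    have h3 : (k' : ℚ) / ((N' * Q₀ * J.factorial : ℕ) : ℚ) < 1 + m := by
      rw [div_lt_iff₀ hnpos]
      have h4 : (e : ℚ) * k' < e * ((1 + m) * ((N' * Q₀ * J.factorial : ℕ) : ℚ)) := by
        refine lt_of_lt_of_le h2 (le_of_eq ?_)
        push_cast; ring
      exact lt_of_mul_lt_mul_left h4 heQ.le
    linarith only [h3]
  · -- effectivity on every model
    intro v k' l hv hover hE hk' hl
    obtain ⟨w, e, he, hw1, hvw⟩ := exists_extension (L := L) v hv.normalized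
    have heQ : (0 : ℚ) < e := by exact_mod_cast he
    set ρ : ℚ := (l : ℚ) / (r * Q₀ : ℕ) with hρ
    have hb : ∀ τ ∈ G, ⌈((N' * Q₀ : ℕ) : ℚ) * (e * ρ)⌉ ≤ ov w (τ F) := by
      intro τ hτ
      rw [Int.ceil_le]
      set w1 := w.comap (τ : L →+* L) with hw1def
      have hw1n := comap_normalized hw1 τ
      have hvw1 : ∀ f : K, w1 (algebraMap K L f) = e • v f := fun f => H.twist hvw hτ f
      have hdiv := isDivisorial_of_ext hv hw1n hvw1
      have hcr := hval w1 v e hv hvw1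
      rw [ov_eq_of v hl] at hcr
      obtain ⟨h1, h0⟩ := htw v w e hover hvw τ hτ
      have hE1 : w1 E = 0 := hE w1 e he hw1n hvw1
      have h1' : ∀ i, 0 ≤ ov w1 (t i) := fun i => (nonneg_iff w1 (ht0 i)).1 (h1 i)
      have h2 : ov w (τ F) = ov w1 F := rfl
      rw [h2, hFov]
      set σ : ℝ := ∑ j, (c j : ℝ) * ov w1 (t (Sum.inr j)) with hσ
      have hσ0 : 0 ≤ σ := Finset.sum_nonneg fun j _ => mul_nonneg
        (by exact_mod_cast (hcpos j).le) (by exact_mod_cast h1' _)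
      have h4 : ((e * ρ : ℚ) : ℝ) = ov w1 h - σ + (ov w1 f : ℝ) / Q₀ := by
        have h40 : (e * ρ : ℚ) = ov w1 h - ∑ j, c j * ov w1 (t (Sum.inr j))
            + (ov w1 f : ℚ) / Q₀ := by
          rw [hρ, ← mul_div_assoc, hcr, mul_div_cancel_left₀ _ hrQ]
        rw [h40]; push_cast; rfl
      have h12 : -((N' : ℝ) * Q₀ * σ) ≤ ((ov w1 S : ℤ) : ℝ) :=
        eff_low hdiv.const (z := fun j => t (Sum.inr j)) (fun j => ht0 _) hcpos
          (fun j => h1' _) hη hN0 hLz (HF.le w1 hdiv h1 h0 hE1) hEe hS0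
      have h6 : (((N' * Q₀ : ℕ) : ℚ) * (e * ρ) : ℚ)
          ≤ (((N' * Q₀ : ℕ) * ov w1 h + (N' * ov w1 f + ov w1 S) : ℤ) : ℚ) := by
        have h7 : ((((N' * Q₀ : ℕ) : ℚ) * (e * ρ) : ℚ) : ℝ)
            ≤ ((((N' * Q₀ : ℕ) * ov w1 h + (N' * ov w1 f + ov w1 S) : ℤ) : ℚ) : ℝ) := by
          rw [Rat.cast_mul, h4, Rat.cast_intCast]
          push_cast
          have hQR : (Q₀ : ℝ) ≠ 0 := by exact_mod_cast hQ₀.ne'
          have h11 : (N' : ℝ) * Q₀ * (ov w1 h - σ + (ov w1 f : ℝ) / Q₀)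
              = N' * Q₀ * ov w1 h - N' * Q₀ * σ + N' * ov w1 f := by
            field_simp
          rw [h11]
          linarith only [h12]
        exact_mod_cast h7
      exact_mod_cast h6
    have h1 := (hφ w v e hvw).1 _ hb
    rw [ov_eq_of v hk'] at h1
    have h2 : (J.factorial : ℚ) * (((N' * Q₀ : ℕ) : ℚ) * (e * ρ)) ≤ e * k' := by
      have h3 : (J.factorial : ℚ) * (⌈((N' * Q₀ : ℕ) : ℚ) * (e * ρ)⌉ : ℚ) ≤ e * k' := by
        exact_mod_cast h1
      refine le_trans ?_ h3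
      exact mul_le_mul_of_nonneg_left (Int.le_ceil _) (by positivity)
    rw [le_div_iff₀ hnpos]
    have h4 : (e : ℚ) * (ρ * ((N' * Q₀ * J.factorial : ℕ) : ℚ)) ≤ e * k' := by
      refine le_trans (le_of_eq ?_) h2
      push_cast; ring
    exact le_of_mul_le_mul_left h4 heQ

end Vale.Agent.P283.H646L
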