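import Vale.Agent.P283.H108.DefsEps

/-!
Common finite covers with a variety which is generically finite over a hypersurface of a torus, and
log canonical complements on the hypersurface over an open subset.
-/

namespace Vale.Agent.P283.H646L

open MvPolynomial Vale.Agent.P283.Q Vale.Agent.P283.Z647

variable {d N s M : ℕ}

/-- The varieties `X' → Z = Spec A` with the function field `K ⊇ A` and the irreducible
hypersurface `V = {f = 0}` in the torus with the coordinates `y_k`: `L` is a finite extension of the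
function field `ℂ(y_0, …, y_d)` of `V`, of any degree, and a finite extension of `K` of degree at
most `J`. So the normalization `Y'` of `X'` in `L` is finite of degree at most `J` over `X'` and
generically finite over `V`. The cone `τ` is spanned by the vectors `v j`; the monomials `y^u` with
`u ∈ τ^∨` are regular on the normalization `Z'` of `Z` in `L`. So there is a morphism from `Z'` to
the affine toric variety `Spec ℂ[y^u : u ∈ τ^∨]`. The cone `τ` may contain lines; it is the whole
space if `Z` is a point. The `g i` do not vanish on `V`. There is no condition on the singularities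
of `V` and of the closure of `V` in toric varieties. -/
structure IsCommonCover (J : ℕ) {K L : Type} [Field K] [Field L] [Algebra ℂ K] [Algebra ℂ L]
    [Algebra K L] (y : Fin (d + 1) → L) (f : MvPolynomial (Fin (d + 1)) ℂ)
    (g : Fin s → MvPolynomial (Fin (d + 1)) ℂ) (v : Fin N → Fin (d + 1) → ℤ)
    (A : Subalgebra ℂ K) : Prop where
  finite : FiniteDimensional K L
  degree : Module.finrank K L ≤ J
  finiteDim : FiniteDimensional (IntermediateField.adjoin ℂ (Set.range y)) L
  equation : ∀ P : MvPolynomial (Fin (d + 1)) ℂ, aeval y P = 0 ↔ f ∣ P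
  nonzero : f ≠ 0
  coordinate : ∀ k, y k ≠ 0
  divisor : ∀ i, aeval y (g i) ≠ 0
  monomials : ∀ u : Fin (d + 1) → ℤ, (∀ j, 0 ≤ ∑ k, v j k * u k) →
    IsIntegral A (∏ k, y k ^ u k)

/-- The `σ i` are rational functions on the hypersurface `V` which are regular on the preimage of
`{b ≠ 0}` in `Z'`: they have orders `≥ 0` along all the prime divisors over `Z'` along which `b` has
the order `0`. -/
def IsRegularOver (d : ℕ) {t : ℕ} {K L : Type} [Field K] [Field L] [Algebra ℂ K] [Algebra ℂ L]
    [Algebra K L] (y : Fin (d + 1) → L) (A : Subalgebra ℂ K) (b : K) (σ : Fin t → L) : Prop :=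
  (∀ i, σ i ∈ IntermediateField.adjoin ℂ (Set.range y)) ∧
    ∀ w : AddValuation L (WithTop ℤ), IsDivisorial d w →
      (∀ a ∈ A, 0 ≤ w (algebraMap K L a)) → w (algebraMap K L b) = 0 → ∀ i, 0 ≤ w (σ i)

/-- Where the `σ i` are regular, the pair `(Y', B_{Y'})`, where
`K_{Y'} + B_{Y'} = H + ∑ c_i div(g_i) + F / r` as in `IsGeneratedM`, has a log canonical
`q`-complement `Λ ≥ B_{Y'}` with `Λ ≥ B_{Y'} + η` along the toric divisors on which the log
discrepancy of `(Y', B_{Y'})` is positive. Here `H` is the divisor of `h`, where the residue form of the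
hypersurface is `Ω` and `h • Ω` is the form `ω` given by the derivations `D`, `K_{Y'}` is the
divisor of `ω`, and `q (K_{Y'} + Λ) = q H + q ∑ c_i div(g_i) + div(S(y) / y^{N₀})` for a polynomial
`S`. The pair `(Y', Λ)` is log canonical along all prime divisors `w` with `w (σ i) ≥ 0` and with
the orders `a k` of the coordinates `y k`, where the vector `a` lies in the cone `τ`. The condition
`Λ ≥ B_{Y'}` says that `⟨ν - N₀, v_j⟩ / q ≥ ord(F) / r` for all the monomials `y^ν` of `S` and all
`j`, where `ord(F)` is the order of `F` along the toric divisor of `v_j`; and the left-hand side is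
at least `ord(F) / r + η` if the log discrepancy `toricDisc` of `(Y', B_{Y'})` along this divisor is
positive. -/
structure IsLcComplementOn {t : ℕ} {L : Type} [Field L] [Algebra ℂ L] (y : Fin (d + 1) → L)
    (f : MvPolynomial (Fin (d + 1)) ℂ) (g : Fin s → MvPolynomial (Fin (d + 1)) ℂ) (c : Fin s → ℚ)
    (v : Fin N → Fin (d + 1) → ℤ) (r : ℕ) (E : Fin (M + 1) → Fin (d + 1) → ℤ) (q : ℕ) (η : ℝ)
    (σ : Fin t → L) (S : MvPolynomial (Fin (d + 1)) ℂ) (N₀ : Fin (d + 1) → ℤ) : Prop where
  ne_zero : aeval y S ≠ 0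
  lc : ∀ (D : Fin d → Derivation ℂ L L) (h : L),
    (∀ i : Fin (d + 1), h * jac D (y ∘ i.succAbove) = (-1) ^ (i : ℕ) * aeval y (pderiv i f)) →
    ∀ (w : AddValuation L (WithTop ℤ)) (m b l : ℤ) (a : Fin (d + 1) → ℤ) (a' : Fin s → ℤ),
      IsDivisorial d w → FormOrder w D m → w h = (b : WithTop ℤ) →
      (∀ k, w (y k) = (a k : WithTop ℤ)) → (∀ i, w (aeval y (g i)) = (a' i : WithTop ℤ)) →
      w (aeval y S) = (l : WithTop ℤ) → Z647.InCone v a → (∀ i, 0 ≤ w (σ i)) →
        0 ≤ 1 + m - b - ∑ i, c i * a' i - ((l - ∑ k, N₀ k * a k : ℤ) : ℚ) / q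
  large : ∀ ν ∈ S.support, ∀ j,
    (ordMono E (v j) : ℝ) / r ≤ ((∑ k, ((ν k : ℤ) - N₀ k) * v j k : ℤ) : ℝ) / q ∧
      (0 < toricDisc f g c r E (v j) →
        (ordMono E (v j) : ℝ) / r + η ≤ ((∑ k, ((ν k : ℤ) - N₀ k) * v j k : ℤ) : ℝ) / q)

end Vale.Agent.P283.H646L
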