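import Vale.Agent.P283.H108.LocTransfer
import Vale.Agent.P283.H646L.DefsX

/-!
Log canonical complements in finite extensions.
-/

set_option linter.all false

namespace Vale.Agent.P283.H646L

open MvPolynomial Finset
open Vale.Agent.P283.Z647 Vale.Agent.P283.H108
open Vale.Agent.P283.H647 (ResForm HypData order_exists order_unique order_transfer exists_ext
  jac_map ov_algebraMap)
open Vale.Agent.P283 (ov ov_mul ov_div ov_pow ov_prod ov_zpow coe_ov ov_eq_of nonneg_iff
  exists_restriction exists_extension divisorial_iff isDivisorial_of_ext)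

variable {d : ℕ} {E L : Type} [Field E] [Field L] [Algebra ℂ E] [Algebra ℂ L] [Algebra E L]
  [IsScalarTower ℂ E L]
variable {N s M : ℕ} {v : Fin N → Fin (d + 1) → ℤ} {x : Fin (d + 1) → E}
  {f : MvPolynomial (Fin (d + 1)) ℂ} {g : Fin s → MvPolynomial (Fin (d + 1)) ℂ} {c : Fin s → ℚ}
  {r : ℕ} {Ex : Fin (M + 1) → Fin (d + 1) → ℤ} {q : ℕ} {η : ℝ}
  {S : MvPolynomial (Fin (d + 1)) ℂ} {N₀ : Fin (d + 1) → ℤ}

/-- Log canonical complements pass to finite extensions. -/
theorem lcc_up [FiniteDimensional E L] (HE : FinData x f)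
    (HL : FinData (fun k => algebraMap E L (x k)) f) (hd : 0 < d)
    (hg : ∀ i, aeval x (g i) ≠ 0) {t : ℕ} {σ : Fin t → E}
    (h : IsLcComplementOn x f g c v r Ex q η σ S N₀) :
    IsLcComplementOn (fun k => algebraMap E L (x k)) f g c v r Ex q η
      (fun i => algebraMap E L (σ i)) S N₀ where
  ne_zero := by
    rw [aeval_map]; exact (map_ne_zero _).2 h.ne_zero
  lc := by
    haveI := HE.ess
    intro D h' hres w m b l a a' hw hm hb ha ha' hl hcone hσ
    have R := HL.res_of hres
    obtain ⟨w₀, e, he, hw₀', hww⟩ := exists_restriction (K := E) d w (divisorial_iff.1 hw)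
    have hw₀ : Q.IsDivisorial d w₀ := divisorial_iff.2 hw₀'
    obtain ⟨D₀, h₀, R₀⟩ := exists_der HE
    obtain ⟨m₀, hm₀⟩ := order_exists hd HE.trdeg D₀ R₀.jac_ne hw₀
    have ha₀ : ∀ k, a k = e * ov w₀ (x k) := by
      intro k
      rw [← ov_algebraMap hww (HE.x0 k)]
      exact (ov_eq_of w (ha k)).symm
    have ha₀' : ∀ i, a' i = e * ov w₀ (aeval x (g i)) := by
      intro i
      rw [← ov_algebraMap hww (hg i), ← aeval_map]
      exact (ov_eq_of w (ha' i)).symm
    have hl₀ : l = e * ov w₀ (aeval x S) := by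
      rw [← ov_algebraMap hww h.ne_zero, ← aeval_map]
      exact (ov_eq_of w hl).symm
    have h1 := h.lc D₀ h₀ R₀.res w₀ m₀ (ov w₀ h₀) (ov w₀ (aeval x S)) (fun k => ov w₀ (x k))
      (fun i => ov w₀ (aeval x (g i))) hw₀ hm₀ (coe_ov w₀ R₀.h0).symm
      (fun k => (coe_ov w₀ (HE.x0 k)).symm) (fun i => (coe_ov w₀ (hg i)).symm)
      (coe_ov w₀ h.ne_zero).symm
      ((inCone_scale he ha₀).1 hcone) (fun i => nonneg_of_nsmul he (by rw [← hww]; exact hσ i))
    have h2 := transfer_disc HE HL hd R₀ R he hw₀ hw hww hm₀ hm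
    have hb0 : ov w h' = b := ov_eq_of w hb
    rw [hb0] at h2
    have heQ : (0 : ℚ) ≤ e := Nat.cast_nonneg e
    have h3 := mul_nonneg heQ h1
    have h4 : ∑ i, c i * (a' i : ℚ) = e * ∑ i, c i * (ov w₀ (aeval x (g i)) : ℚ) := by
      rw [Finset.mul_sum]
      refine Finset.sum_congr rfl fun i _ => ?_
      rw [ha₀' i]
      push_cast; ring
    have h5 : ∑ k, N₀ k * a k = e * ∑ k, N₀ k * ov w₀ (x k) := by
      rw [Finset.mul_sum]
      exact Finset.sum_congr rfl fun k _ => by rw [ha₀ k]; ring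
    have h7 : (1 : ℚ) + m - b = e * (1 + m₀ - ov w₀ h₀) := by exact_mod_cast h2
    rw [h4, h5, h7, hl₀]
    refine le_trans h3 (le_of_eq ?_)
    push_cast
    ring
  large := h.large

/-- Log canonical complements descend along finite extensions. -/
theorem lcc_down [FiniteDimensional E L] (HE : FinData x f)
    (HL : FinData (fun k => algebraMap E L (x k)) f) (hd : 0 < d)
    (hg : ∀ i, aeval x (g i) ≠ 0) {t : ℕ} {σ : Fin t → E}
    (h : IsLcComplementOn (fun k => algebraMap E L (x k)) f g c v r Ex q η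
      (fun i => algebraMap E L (σ i)) S N₀) : IsLcComplementOn x f g c v r Ex q η σ S N₀ where
  ne_zero := by
    have h1 := h.ne_zero
    rw [aeval_map] at h1
    exact (map_ne_zero _).1 h1
  lc := by
    haveI := HE.ess
    haveI := HL.ess
    haveI : Algebra.IsAlgebraic E L := Algebra.IsAlgebraic.of_finite E L
    haveI : CharZero E := charZero_of_injective_algebraMap (algebraMap ℂ E).injective
    intro D₀ h₀ hres w₀ m₀ b l a a' hw₀ hm₀ hb ha ha' hl hcone hσ
    have R₀ := HE.res_of hres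
    obtain ⟨w, e, he, hw1, hww⟩ := exists_extension (L := L) w₀ hw₀.normalized
    have hw : Q.IsDivisorial d w :=
      divisorial_iff.2 (isDivisorial_of_ext (divisorial_iff.1 hw₀) hw1 hww)
    obtain ⟨D, h', R⟩ := exists_der HL
    obtain ⟨m, hm⟩ := order_exists hd HL.trdeg D R.jac_ne hw
    have ha₀ : ∀ k, ov w₀ (x k) = a k := fun k => ov_eq_of w₀ (ha k)
    have ha₀' : ∀ i, ov w₀ (aeval x (g i)) = a' i := fun i => ov_eq_of w₀ (ha' i)
    have hl₀ : ov w₀ (aeval x S) = l := ov_eq_of w₀ hl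
    have hS₀ : aeval x S ≠ 0 := by
      have h1 := h.ne_zero
      rw [aeval_map] at h1
      exact (map_ne_zero _).1 h1
    have hwx : ∀ k, ov w (algebraMap E L (x k)) = e * a k := fun k => by
      rw [ov_algebraMap hww (HE.x0 k), ha₀]
    have hgL : ∀ i, aeval (fun k => algebraMap E L (x k)) (g i) ≠ 0 := fun i => by
      rw [aeval_map]; exact (map_ne_zero _).2 (hg i)
    have hwg : ∀ i, ov w (aeval (fun k => algebraMap E L (x k)) (g i)) = e * a' i := fun i => by
      rw [aeval_map, ov_algebraMap hww (hg i), ha₀']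
    have hwS : ov w (aeval (fun k => algebraMap E L (x k)) S) = e * l := by
      rw [aeval_map, ov_algebraMap hww hS₀, hl₀]
    have h1 := h.lc D h' R.res w m (ov w h') (e * l) (fun k => e * a k) (fun i => e * a' i) hw hm
      (coe_ov w R.h0).symm (fun k => by rw [← hwx, coe_ov w (HL.x0 k)])
      (fun i => by rw [← hwg, coe_ov w (hgL i)]) (by rw [← hwS, coe_ov w h.ne_zero])
      ((inCone_scale he fun k => rfl).2 hcone)
      (fun i => by rw [hww]; exact nsmul_nonneg (hσ i) e)
    have h2 := transfer_disc HE HL hd R₀ R he hw₀ hw hww hm₀ hm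
    have hb0 : ov w₀ h₀ = b := ov_eq_of w₀ hb
    rw [hb0] at h2
    have heQ : (0 : ℚ) < e := by exact_mod_cast he
    have h4 : ∑ i, c i * ((e * a' i : ℤ) : ℚ) = e * ∑ i, c i * (a' i : ℚ) := by
      rw [Finset.mul_sum]
      refine Finset.sum_congr rfl fun i _ => ?_
      push_cast; ring
    have h5 : ∑ k, N₀ k * ((e : ℤ) * a k) = e * ∑ k, N₀ k * a k := by
      rw [Finset.mul_sum]
      exact Finset.sum_congr rfl fun k _ => by ring
    have h7 : (1 : ℚ) + m - ov w h' = e * (1 + m₀ - b) := by exact_mod_cast h2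
    rw [h4, h5, h7] at h1
    have h8 : (e : ℚ) * 0 ≤ e * (1 + m₀ - b - ∑ i, c i * (a' i : ℚ) -
        ((l - ∑ k, N₀ k * a k : ℤ) : ℚ) / q) := by
      rw [mul_zero]
      refine le_trans h1 (le_of_eq ?_)
      push_cast
      ring
    exact le_of_mul_le_mul_left h8 heQ
  large := h.large

end Vale.Agent.P283.H646L
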