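import Vale.Agent.P283.H108.Psi2
import Vale.Agent.P283.H108.CorrUp
import Vale.Agent.P283.H646L.EngineL
import Vale.Agent.P283.H646L.ConcX
import Vale.Agent.P283.H646L.BertX
import Vale.Agent.P283.H646L.TransX

/-!
From log canonical complements to klt complements: exponents, equations, log discrepancies.
-/

set_option linter.all false

namespace Vale.Agent.P283.H646L

open MvPolynomial Finset
open Vale.Agent.P283.Z647 Vale.Agent.P283.H108
open Vale.Agent.P283.H647 (ResForm HypData order_exists order_unique order_transfer exists_ext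
  isAlgebraic_of_fix toE toE_apply exists_shift ov_algebraMap)
open Vale.Agent.P283 (ov ov_mul ov_div ov_pow ov_prod ov_zpow coe_ov ov_eq_of nonneg_iff
  exists_restriction exists_extension divisorial_iff isDivisorial_of_ext comap_normalized
  comap_apply' centreIdeal)

/-- The exponents of the complement. -/
theorem exists_Ee {m : ℕ} {MM : Finset (Fin m → ℤ)} (hMM : MM.Nonempty)
    (Ls : Finset (Fin m → ℤ)) (k : ℕ) : ∃ Ee : Finset (Fin m → ℤ), Ee.Nonempty ∧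
      (∀ γ ∈ Ee, ∃ μ ∈ MM, (γ = fun j => -(k : ℤ) * μ j) ∨
        ∃ s ∈ Ls, γ = fun j => -(k : ℤ) * μ j + s j) ∧
      ∀ μ ∈ MM, ∀ s ∈ Ls, (fun j => -(k : ℤ) * μ j + s j) ∈ Ee := by
  classical
  refine ⟨MM.biUnion fun μ => insert (fun j => -(k : ℤ) * μ j)
    (Ls.image fun s => fun j => -(k : ℤ) * μ j + s j), ?_, ?_, ?_⟩
  · obtain ⟨μ, hμ⟩ := hMM
    exact ⟨_, Finset.mem_biUnion.2 ⟨μ, hμ, Finset.mem_insert_self _ _⟩⟩
  · intro γ hγ
    obtain ⟨μ, hμ, h1⟩ := Finset.mem_biUnion.1 hγ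
    refine ⟨μ, hμ, ?_⟩
    rcases Finset.mem_insert.1 h1 with h1 | h1
    · exact Or.inl h1
    · obtain ⟨s, hs, rfl⟩ := Finset.mem_image.1 h1
      exact Or.inr ⟨s, hs, rfl⟩
  · intro μ hμ s hs
    exact Finset.mem_biUnion.2 ⟨μ, hμ, Finset.mem_insert_of_mem (Finset.mem_image_of_mem _ hs)⟩

/-- The equation of the non-toric part of the boundary. -/
theorem exists_g₁ {m s : ℕ} {L : Type} [Field L] [Algebra ℂ L] {y : Fin m → L}
    {g : Fin s → MvPolynomial (Fin m) ℂ} (hg : ∀ i, aeval y (g i) ≠ 0) (cq : Fin s → ℕ) :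
    ∃ g₁ : Fin 1 → MvPolynomial (Fin m) ℂ, (∀ i, aeval y (g₁ i) ≠ 0) ∧
      ∀ w : AddValuation L (WithTop ℤ),
        ov w (aeval y (g₁ 0)) = ∑ i, (cq i : ℤ) * ov w (aeval y (g i)) := by
  have hg₁0 : aeval y (∏ i, g i ^ cq i) = ∏ i, aeval y (g i) ^ cq i := by
    rw [map_prod]
    exact Finset.prod_congr rfl fun i _ => map_pow _ _ _
  refine ⟨fun _ => ∏ i, g i ^ cq i, ?_, ?_⟩
  · intro i
    show aeval y (∏ i, g i ^ cq i) ≠ 0
    rw [hg₁0]
    exact Finset.prod_ne_zero_iff.2 fun i _ => pow_ne_zero _ (hg i)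
  · intro w
    show ov w (aeval y (∏ i, g i ^ cq i)) = _
    rw [hg₁0, ov_prod _ _ fun i _ => pow_ne_zero _ (hg i)]
    exact Finset.sum_congr rfl fun i _ => ov_pow w (hg i) _

/-- The condition of the theorem of Bertini type. -/
theorem bert_condX {e s N M : ℕ} {L : Type} [Field L] [Algebra ℂ L] {y : Fin (e + 2) → L}
    {f : MvPolynomial (Fin (e + 2)) ℂ} {g : Fin s → MvPolynomial (Fin (e + 2)) ℂ}
    {g₁ : Fin 1 → MvPolynomial (Fin (e + 2)) ℂ} {v : Fin N → Fin (e + 2) → ℤ}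
    (hy : ∀ k, y k ≠ 0) (hg : ∀ i, aeval y (g i) ≠ 0) {D' : Fin (e + 1) → Derivation ℂ L L}
    {h : L} (R : ResForm y f D' h) {cq : Fin s → ℕ}
    (hovg : ∀ w : AddValuation L (WithTop ℤ),
      ov w (aeval y (g₁ 0)) = ∑ i, (cq i : ℤ) * ov w (aeval y (g i)))
    {c : Fin s → ℚ} {q r : ℕ} {η : ℝ} {E : Fin (M + 1) → Fin (e + 2) → ℤ}
    (hcq : ∀ i, (cq i : ℚ) = q * c i) (hq : 0 < q) {t : ℕ} {σ : Fin t → L}
    {S₀ : MvPolynomial (Fin (e + 2)) ℂ}
    {N₀ : Fin (e + 2) → ℤ} (HL : IsLcComplementOn y f g c v r E q η σ S₀ N₀) :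
    ∀ (w : AddValuation L (WithTop ℤ)) (m : ℤ), Q.IsDivisorial (e + 1) w →
      Z647.InCone v (wts w y) → (∀ i, 0 ≤ w (σ i)) → Q.FormOrder w D' m →
      ov w (aeval y (g₁ 0)) ≤ q * (1 + m - ov w h) +
        maxP (S₀.support.image fun ν => fun j => N₀ j - (ν j : ℤ)) (wts w y) := by
  classical
  intro w m hw hcone hσ hm
  have hqQ : (0 : ℚ) < q := by exact_mod_cast hq
  have hS₀ : S₀ ≠ 0 := by
    intro h0
    exact HL.ne_zero (by rw [h0, map_zero])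
  rw [hovg]
  have h1 := HL.lc D' h R.res w m (ov w h) (ov w (aeval y S₀)) (wts w y)
    (fun i => ov w (aeval y (g i))) hw hm (coe_ov w R.h0).symm
    (fun k => (coe_ov w (hy k)).symm) (fun i => (coe_ov w (hg i)).symm)
    (coe_ov w HL.ne_zero).symm hcone hσ
  obtain ⟨ν, hν, hνw⟩ := (isMinZ_minWt hS₀ (wts w y)).1
  have h4 := ov_lower hw.const hy HL.ne_zero (isMinZ_minWt hS₀ (wts w y))
  rw [← hνw] at h4
  have h5 := le_maxP (Finset.mem_image_of_mem (fun ν => fun j => N₀ j - (ν j : ℤ)) hν) (wts w y)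
  have h6 : ∑ j, (N₀ j - (ν j : ℤ)) * wts w y j =
      ∑ j, N₀ j * wts w y j - wtZ (wts w y) ν := by
    unfold wtZ
    rw [← Finset.sum_sub_distrib]
    exact Finset.sum_congr rfl fun j _ => by ring
  rw [h6] at h5
  have h7 := mul_nonneg hqQ.le h1
  have h8 : (q : ℚ) * (1 + m - ov w h - ∑ i, c i * (ov w (aeval y (g i)) : ℚ) -
      ((ov w (aeval y S₀) - ∑ k, N₀ k * wts w y k : ℤ) : ℚ) / q) =
      q * (1 + m - ov w h) - ∑ i, (cq i : ℚ) * ov w (aeval y (g i)) -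
        ((ov w (aeval y S₀) - ∑ k, N₀ k * wts w y k : ℤ) : ℚ) := by
    have h9 : ∑ i, (cq i : ℚ) * ov w (aeval y (g i)) =
        q * ∑ i, c i * (ov w (aeval y (g i)) : ℚ) := by
      rw [Finset.mul_sum]
      exact Finset.sum_congr rfl fun i _ => by rw [hcq]; ring
    rw [h9]
    field_simp
  rw [h8] at h7
  have h9 : 0 ≤ (q : ℤ) * (1 + m - ov w h) - ∑ i, (cq i : ℤ) * ov w (aeval y (g i)) -
      (ov w (aeval y S₀) - ∑ k, N₀ k * wts w y k) := by exact_mod_cast h7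
  linarith

/-- The exponents give effective divisors. -/
theorem eff_expos {e N M : ℕ} {v : Fin N → Fin (e + 2) → ℤ}
    {r q k k₀ : ℕ} {η : ℝ} {E : Fin (M + 1) → Fin (e + 2) → ℤ} (hq : 0 < q) (hη : 0 < η)
    (hr : 0 < r) (hkη : (k₀ : ℝ) ≤ k * η) (hsub : IsSubdivision v E) {κ : Fin N → ℕ}
    {δ : Fin N → ℝ} (hκ : ∀ j, (κ j : ℝ) = q * δ j) {Ls MM : Finset (Fin (e + 2) → ℤ)}
    (hLs : ∀ x ∈ Ls, ∀ j, -((k₀ : ℤ) * κ j) ≤ ∑ i, x i * v j i)
    (hMM : ∀ μ ∈ MM, ∀ j, (ordMono E (v j) : ℝ) / r + η * δ j ≤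
      ((∑ k, -μ k * v j k : ℤ) : ℝ) / q)
    {γ : Fin (e + 2) → ℤ} (hγ : ∃ μ ∈ MM, (γ = fun j => -(k : ℤ) * μ j) ∨
      ∃ s ∈ Ls, γ = fun j => -(k : ℤ) * μ j + s j) {a : Fin (e + 2) → ℤ}
    (ha : Z647.InCone v a) :
    (k : ℚ) * q * ((ordMono E a : ℚ) / r) ≤ ((∑ i, γ i * a i : ℤ) : ℚ) := by
  have hqR : (0 : ℝ) < q := by exact_mod_cast hq
  have hkR : (0 : ℝ) ≤ k := Nat.cast_nonneg _
  have key : ∀ j, (k : ℚ) * q * ((ordMono E (v j) : ℚ) / r) ≤ ((∑ i, γ i * v j i : ℤ) : ℚ) := by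
    intro j
    obtain ⟨μ, hμ, h1⟩ := hγ
    have h2 := hMM μ hμ j
    rw [le_div_iff₀ hqR] at h2
    have h3 : (κ j : ℝ) = q * δ j := hκ j
    have h4 : (k : ℝ) * (((ordMono E (v j) : ℝ) / r + η * δ j) * q) ≤
        k * ((∑ k, -μ k * v j k : ℤ) : ℝ) := mul_le_mul_of_nonneg_left h2 hkR
    have h5 : (k : ℝ) * (((ordMono E (v j) : ℝ) / r + η * δ j) * q) =
        k * q * ((ordMono E (v j) : ℝ) / r) + k * η * κ j := by
      rw [h3]; ring
    rw [h5] at h4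
    have hκ0 : (0 : ℝ) ≤ κ j := Nat.cast_nonneg _
    have h6 : (k₀ : ℝ) * κ j ≤ k * η * κ j := mul_le_mul_of_nonneg_right hkη hκ0
    have h60 : (0 : ℝ) ≤ (k₀ : ℝ) * κ j := mul_nonneg (Nat.cast_nonneg _) hκ0
    have h7 : (k : ℝ) * q * ((ordMono E (v j) : ℝ) / r) ≤ ((∑ i, γ i * v j i : ℤ) : ℝ) := by
      rcases h1 with rfl | ⟨s, hs, rfl⟩
      · have h8 : ∑ i, -(k : ℤ) * μ i * v j i = k * ∑ i, -μ i * v j i := by
          rw [Finset.mul_sum]
          exact Finset.sum_congr rfl fun i _ => by ring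
        rw [h8, Int.cast_mul, Int.cast_natCast]
        linarith only [h4, h6, h60]
      · have h8 : ∑ i, (-(k : ℤ) * μ i + s i) * v j i =
            k * (∑ i, -μ i * v j i) + ∑ i, s i * v j i := by
          rw [Finset.mul_sum, ← Finset.sum_add_distrib]
          exact Finset.sum_congr rfl fun i _ => by ring
        have h9 : -((k₀ : ℝ) * κ j) ≤ ((∑ i, s i * v j i : ℤ) : ℝ) := by
          exact_mod_cast hLs s hs j
        rw [h8, Int.cast_add, Int.cast_mul, Int.cast_natCast]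
        linarith only [h4, h6, h9]
    exact_mod_cast h7
  obtain ⟨t, ht, hta, htE⟩ := hsub a ha
  have h1 : ((∑ i, γ i * a i : ℤ) : ℚ) = ∑ j, t j * ((∑ i, γ i * v j i : ℤ) : ℚ) := by
    push_cast
    simp only [hta, Finset.mul_sum]
    rw [Finset.sum_comm]
    exact Finset.sum_congr rfl fun j _ => Finset.sum_congr rfl fun k _ => by ring
  have h2 : (k : ℚ) * q * ((ordMono E a : ℚ) / r) =
      ∑ j, t j * ((k : ℚ) * q * ((ordMono E (v j) : ℚ) / r)) := by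
    rw [htE]
    simp only [Finset.mul_sum, Finset.sum_div]
    exact Finset.sum_congr rfl fun j _ => by ring
  rw [h1, h2]
  exact Finset.sum_le_sum fun j _ => mul_le_mul_of_nonneg_left (key j) (ht j)

/-- The complement is klt. -/
theorem klt_phiX {e s N : ℕ} {L : Type} [Field L] [Algebra ℂ L] {y : Fin (e + 2) → L}
    {f : MvPolynomial (Fin (e + 2)) ℂ} {g : Fin s → MvPolynomial (Fin (e + 2)) ℂ}
    {S : MvPolynomial (Fin (e + 2)) ℂ} {v : Fin N → Fin (e + 2) → ℤ}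
    (hy : ∀ k, y k ≠ 0) (hf : f ≠ 0) (heqn : aeval y f = 0)
    {D' : Fin (e + 1) → Derivation ℂ L L} {h : L} (hh : h ≠ 0) (hg : ∀ i, aeval y (g i) ≠ 0)
    {cq : Fin s → ℕ} (hS0 : S ≠ 0) (hxS : aeval y S ≠ 0)
    {Ee MM Ls : Finset (Fin (e + 2) → ℤ)} {σ : Fin (e + 2) → ℤ}
    (hS1 : S.support = Ee.image fun γ => toE (σ + γ)) (hσ : ∀ γ ∈ Ee, 0 ≤ σ + γ)
    (hMM : MM.Nonempty) {k q : ℕ} (hk : 2 ≤ k) (hq : 0 < q)
    (hEe2 : ∀ μ ∈ MM, ∀ s ∈ Ls, (fun j => -(k : ℤ) * μ j + s j) ∈ Ee)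
    (hLs2 : ∀ a, Z647.InCone v a → a ≠ 0 → NonMonoZ f a → ∃ x ∈ Ls, ∑ i, x i * a i < 0)
    {w : AddValuation L (WithTop ℤ)} (hw : Q.IsDivisorial (e + 1) w)
    (hcone : Z647.InCone v (wts w y)) {m' : ℤ}
    (hb : ∑ i, (cq i : ℤ) * ov w (aeval y (g i)) + q * (ov w (aeval y S) - minWt S (wts w y)) ≤
      q * (1 + m' - ov w h) + maxP MM (wts w y))
    (hz : wts w y = 0 →
      ∑ i, (cq i : ℤ) * ov w (aeval y (g i)) < q * (1 + m' - ov w h)) :
    ov w (phiOne y h g k q cq S σ) < k * q * (1 + m') := by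
  classical
  obtain ⟨⟨α₀, hα₀, hα₀w⟩, hmin⟩ := isMinZ_minWt hS0 (wts w y)
  rw [hS1] at hα₀
  obtain ⟨γ₀, hγ₀, rfl⟩ := Finset.mem_image.1 hα₀
  have hwt : ∀ γ ∈ Ee, wtZ (wts w y) (toE (σ + γ)) =
      ∑ i, σ i * wts w y i + ∑ i, γ i * wts w y i := by
    intro γ hγ
    unfold wtZ
    rw [← Finset.sum_add_distrib]
    refine Finset.sum_congr rfl fun i _ => ?_
    rw [toE_apply (hσ γ hγ) i, Pi.add_apply]; ring
  rw [hwt γ₀ hγ₀] at hα₀w
  have hlow := ov_lower hw.const hy hxS (isMinZ_minWt hS0 (wts w y))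
  have hres := klt_arith (M := MM) (Ls := Ls) (Ee := Ee) hMM hk hq hEe2 (a := wts w y)
    (fun ha0 => by
      have hnm : NonMonoZ f (wts w y) := nonMono_of_zeroZ hw.const hf heqn
        (fun j => (coe_ov w (hy j)).symm)
      obtain ⟨x, hx, hx'⟩ := hLs2 _ hcone ha0 hnm
      exact ⟨x, hx, by omega⟩) (γ₀ := γ₀)
    (by
      intro γ hγ
      have h1 := hmin (toE (σ + γ)) (by rw [hS1]; exact Finset.mem_image_of_mem _ hγ)
      rw [hwt γ hγ, ← hα₀w] at h1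
      linarith)
    (F := ∑ i, (cq i : ℤ) * ov w (aeval y (g i)))
    (S := ov w (aeval y S) - ∑ i, σ i * wts w y i) (T := 1 + m' - ov w h)
    (by rw [← hα₀w] at hlow; linarith)
    (by
      rw [← hα₀w] at hb
      have h1 : ov w (aeval y S) - ∑ i, σ i * wts w y i - ∑ i, γ₀ i * wts w y i =
          ov w (aeval y S) - (∑ i, σ i * wts w y i + ∑ i, γ₀ i * wts w y i) := by ring
      rw [h1]
      exact hb)
    hz
  rw [ov_phiOne hy hh hg hxS]
  have h2 : (k : ℤ) * (q * (1 + m' - ov w h)) = k * q * (1 + m') - k * q * ov w h := by ring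
  rw [h2] at hres
  linarith

/-- The cone is closed under division. -/
theorem cone_div {m N : ℕ} {v : Fin N → Fin m → ℤ} (β : ℕ) (a a' : Fin m → ℤ) (hβ : 0 < β)
    (hβa : ∀ k, (β : ℤ) * a' k = a k) (ha : Z647.InCone v a) : Z647.InCone v a' := by
  obtain ⟨t, ht, hta⟩ := ha
  have hβQ : (0 : ℚ) < β := by exact_mod_cast hβ
  refine ⟨fun j => t j / β, fun j => div_nonneg (ht j) hβQ.le, fun i => ?_⟩
  have h1 : (β : ℚ) * (a' i : ℚ) = a i := by exact_mod_cast hβa i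
  have h2 : (a' i : ℚ) = a i / β := by rw [← h1]; field_simp
  rw [h2, hta, Finset.sum_div]
  exact Finset.sum_congr rfl fun j _ => by ring

theorem maxP_zero {m : ℕ} {MM : Finset (Fin m → ℤ)} (hMM : MM.Nonempty) : maxP MM 0 = 0 := by
  obtain ⟨μ, -, hμ⟩ := exists_maxP hMM (0 : Fin m → ℤ)
  rw [hμ]; simp

/-- The inequality of the theorem of Bertini type in the cover. -/
theorem bertX {E L : Type} [Field E] [Field L] [Algebra ℂ E] [Algebra ℂ L] [Algebra E L]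
    [IsScalarTower ℂ E L] [FiniteDimensional E L] {e N s : ℕ} {v : Fin N → Fin (e + 2) → ℤ}
    {x : Fin (e + 2) → E} {f : MvPolynomial (Fin (e + 2)) ℂ}
    {g : Fin s → MvPolynomial (Fin (e + 2)) ℂ} {g₁ : Fin 1 → MvPolynomial (Fin (e + 2)) ℂ}
    {S : MvPolynomial (Fin (e + 2)) ℂ}
    (HE : FinData x f) (HL : FinData (fun k => algebraMap E L (x k)) f) (hd : 0 < e + 1)
    (H₀ : HypData x f) {D₀ : Fin (e + 1) → Derivation ℂ E E} {h₀ : E} (R₀ : ResForm x f D₀ h₀)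
    {D : Fin (e + 1) → Derivation ℂ L L} {h : L}
    (R : ResForm (fun k => algebraMap E L (x k)) f D h) (hg : ∀ i, aeval x (g i) ≠ 0)
    (hg₁ : ∀ i, aeval x (g₁ i) ≠ 0) {cq : Fin s → ℕ}
    (hovg : ∀ w : AddValuation E (WithTop ℤ),
      ov w (aeval x (g₁ 0)) = ∑ i, (cq i : ℤ) * ov w (aeval x (g i)))
    {q : ℕ} {MM : Finset (Fin (e + 2) → ℤ)} (hMM : MM.Nonempty) {t t' : ℕ} {s₀ : Fin t → E}
    (hcond : ∀ (w : AddValuation E (WithTop ℤ)) (m : ℤ), Q.IsDivisorial (e + 1) w →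
      Z647.InCone v (wts w x) → (∀ i, 0 ≤ w (s₀ i)) → Q.FormOrder w D₀ m →
      ov w (aeval x (g₁ 0)) ≤ q * (1 + m - ov w h₀) + maxP MM (wts w x))
    {gx : Fin t' → MvPolynomial (Fin (e + 2)) ℂ}
    (hgx : ∀ i, Fixes x gx (s₀ i)) (hS0 : S ≠ 0) (hSg : GenCoeffX f g₁ gx S)
    {w : AddValuation L (WithTop ℤ)} (hw : Q.IsDivisorial (e + 1) w)
    (hcone : Z647.InCone v (wts w (fun k => algebraMap E L (x k))))
    (hwσ : ∀ i, 0 ≤ w (algebraMap E L (s₀ i))) {m : ℤ} (hm : Q.FormOrder w D m) :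
    ∑ i, (cq i : ℤ) * ov w (aeval (fun k => algebraMap E L (x k)) (g i)) +
      q * (ov w (aeval (fun k => algebraMap E L (x k)) S) -
        minWt S (wts w (fun k => algebraMap E L (x k)))) ≤
      q * (1 + m - ov w h) + maxP MM (wts w (fun k => algebraMap E L (x k))) := by
  haveI := HE.ess
  have h1 : ov w (aeval (fun k => algebraMap E L (x k)) (g₁ 0)) =
      ∑ i, (cq i : ℤ) * ov w (aeval (fun k => algebraMap E L (x k)) (g i)) := by
    obtain ⟨w₀, e₀, he, hw₀', hww⟩ := exists_restriction (K := E) (e + 1) w (divisorial_iff.1 hw)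
    rw [aeval_map, ov_algebraMap hww (hg₁ 0), hovg, Finset.mul_sum]
    refine Finset.sum_congr rfl fun i _ => ?_
    rw [aeval_map, ov_algebraMap hww (hg i)]
    ring
  rw [← h1]
  exact bertini_upX (C := Z647.InCone v) (Ψ := maxP MM) HE HL hd H₀ R₀ R hg₁ hgx
    (fun β a a' hβ h2 h3 => cone_div β a a' hβ h2 h3)
    (fun β a a' _ hβa => maxP_mul hMM β a a' hβa) (maxP_zero hMM) hcond hS0 hSg hw hcone hwσ hm

end Vale.Agent.P283.H646L
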