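import Vale.Agent.P283.H108.FibCore
import Vale.Agent.P283.H646L.MainX

/-!
From log canonical complements to klt complements for pairs with a Galois cover with a rational map
to a torus.
-/

set_option linter.all false

namespace Vale.Agent.P283.H646L

open MvPolynomial Finset
open Vale.Agent.P283.Z647 Vale.Agent.P283.H108
open Vale.Agent.P283.H647 (ResForm HypData order_exists order_unique order_transfer exists_ext
  isAlgebraic_of_fix toE toE_apply exists_shift ov_algebraMap)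
open Vale.Agent.P283 (ov ov_mul ov_div ov_pow ov_prod ov_zpow coe_ov ov_eq_of nonneg_iff
  exists_restriction exists_extension divisorial_iff isDivisorial_of_ext comap_normalized
  comap_apply' centreIdeal)

/-- The complement is klt. -/
theorem klt_phiF {e e' N : ℕ} {L : Type} [Field L] [Algebra ℂ L] {y : Fin (e + 2) → L}
    {f : MvPolynomial (Fin (e + 2)) ℂ} {G : L}
    {S : MvPolynomial (Fin (e + 2)) ℂ} {v : Fin N → Fin (e + 2) → ℤ}
    (hy : ∀ k, y k ≠ 0) (hf : f ≠ 0) (heqn : aeval y f = 0) (hG : G ≠ 0)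
    (hS0 : S ≠ 0) (hxS : aeval y S ≠ 0)
    {Ee MM Ls : Finset (Fin (e + 2) → ℤ)} {σ : Fin (e + 2) → ℤ}
    (hS1 : S.support = Ee.image fun γ => toE (σ + γ)) (hσ : ∀ γ ∈ Ee, 0 ≤ σ + γ)
    (hMM : MM.Nonempty) {k q : ℕ} (hk : 2 ≤ k) (hq : 0 < q)
    (hEe2 : ∀ μ ∈ MM, ∀ s ∈ Ls, (fun j => -(k : ℤ) * μ j + s j) ∈ Ee)
    (hLs2 : ∀ a, Z647.InCone v a → a ≠ 0 → NonMonoZ f a → ∃ x ∈ Ls, ∑ i, x i * a i < 0)
    {w : AddValuation L (WithTop ℤ)} (hw : Q.IsDivisorial (e' + 1) w)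
    (hcone : Z647.InCone v (wts w y)) {m' : ℤ}
    (hb : ov w G + q * (ov w (aeval y S) - minWt S (wts w y)) ≤
      q * (1 + m') + maxP MM (wts w y))
    (hz : wts w y = 0 → ov w G < q * (1 + m')) :
    ov w (phiOne y G (fun i : Fin 0 => (0 : MvPolynomial (Fin (e + 2)) ℂ)) k 1 (fun _ => 0)
      S σ) < k * q * (1 + m') := by
  classical
  obtain ⟨⟨α₀, hα₀, hα₀w⟩, hmin⟩ := isMinZ_minWt hS0 (wts w y)
  rw [hS1] at hα₀
  obtain ⟨γ₀, hγ₀, rfl⟩ := Finset.mem_image.1 hα₀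
  have hwt : ∀ γ ∈ Ee, wtZ (wts w y) (toE (σ + γ)) =
      ∑ i, σ i * wts w y i + ∑ i, γ i * wts w y i := by
    intro γ hγ
    unfold wtZ
    rw [← Finset.sum_add_distrib]
    refine Finset.sum_congr rfl fun i _ => ?_
    rw [toE_apply (hσ γ hγ) i, Pi.add_apply]; ring
  rw [hwt γ₀ hγ₀] at hα₀w
  have hlow := ov_lower hw.const hy hxS (isMinZ_minWt hS0 (wts w y))
  have hres := klt_arith (M := MM) (Ls := Ls) (Ee := Ee) hMM hk hq hEe2 (a := wts w y)
    (fun ha0 => by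
      have hnm : NonMonoZ f (wts w y) := nonMono_of_zeroZ hw.const hf heqn
        (fun j => (coe_ov w (hy j)).symm)
      obtain ⟨x, hx, hx'⟩ := hLs2 _ hcone ha0 hnm
      exact ⟨x, hx, by omega⟩) (γ₀ := γ₀)
    (by
      intro γ hγ
      have h1 := hmin (toE (σ + γ)) (by rw [hS1]; exact Finset.mem_image_of_mem _ hγ)
      rw [hwt γ hγ, ← hα₀w] at h1
      linarith)
    (F := ov w G)
    (S := ov w (aeval y S) - ∑ i, σ i * wts w y i) (T := 1 + m')
    (by rw [← hα₀w] at hlow; linarith)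
    (by
      rw [← hα₀w] at hb
      have h1 : ov w (aeval y S) - ∑ i, σ i * wts w y i - ∑ i, γ₀ i * wts w y i =
          ov w (aeval y S) - (∑ i, σ i * wts w y i + ∑ i, γ₀ i * wts w y i) := by ring
      rw [h1]
      exact hb)
    hz
  have hov : ov w (phiOne y G (fun i : Fin 0 => (0 : MvPolynomial (Fin (e + 2)) ℂ)) k 1
      (fun _ => 0) S σ) = k * ov w G + ov w (aeval y S) - ∑ i, σ i * wts w y i := by
    rw [ov_phiOne hy hG (fun i => i.elim0) hxS σ w]
    simp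
  rw [hov]
  have h2 : (k : ℤ) * (q * (1 + m')) = k * q * (1 + m') := by ring
  rw [h2] at hres
  linarith

theorem coreF (p : ℕ) (hp : 0 < p) (J q : ℕ) (hq : 0 < q) (ε : ℝ) (hε : 0 < ε) :
    ∃ c₀ : ℕ, 0 < c₀ ∧ ∀ (η : ℝ) (n : ℕ), 0 < η → c₀ ∣ n → (c₀ : ℝ) * (1 + 1 / η) ≤ n →
    ∀ (K L : Type) [Field K] [Field L] [Algebra ℂ K] [Algebra ℂ L] [Algebra K L]
      [IsScalarTower ℂ K L] (J' d s M N : ℕ) (hd : 0 < d) (y : Fin (p + 1) → L)
      (f : MvPolynomial (Fin (p + 1)) ℂ)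
      (g : Fin s → MvPolynomial (Fin (p + 1)) ℂ) (c : Fin s → ℚ) (v : Fin N → Fin (p + 1) → ℤ)
      (A : Subalgebra ℂ K) (b₀ : K) (D : Fin d → Derivation ℂ K K) (G : L)
      (Γ : Subgroup (L ≃ₐ[ℂ] L)) (hΓ : Finite Γ) (hcard : Nat.card Γ ≤ J)
      (hfield : ∀ z : L, z ∈ Set.range (algebraMap K L) ↔ ∀ τ ∈ Γ, τ z = z),
      IsLcModelOn J' q y f g c v A 0 D G →
      (∀ i, 0 ≤ c i ∧ ∃ z : ℤ, (q : ℚ) * c i = z) → (∃ z, Q.jac D z ≠ 0) →
    ∀ (𝒞 : Set (Subalgebra ℂ K)) (B : ∀ C : Subalgebra ℂ K, Q.QDivisor C) (r : ℕ)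
      (ψ : Subalgebra ℂ K → K), H207.IsPair D A 𝒞 B r ψ →
    ∀ (E : Fin (M + 1) → Fin (p + 1) → ℤ), IsGeneratedG d q y G E 𝒞 r ψ →
      IsSubdivision v E →
      (∀ j, toricDisc f g c r E (v j) ≤ 1) →
      (∃ δ : ℝ, 0 < δ ∧ ∀ C ∈ 𝒞, Q.IsEpsLC D (B C) δ) → PsiBound v f g c r E ε →
    ∀ MM : Finset (Fin (p + 1) → ℤ), MM.Nonempty →
      (∀ D' : Fin d → Derivation ℂ L L,
        (∀ (i : Fin d) (z : K), D' i (algebraMap K L z) = algebraMap K L (D i z)) →
        ∀ (w : AddValuation L (WithTop ℤ)) (m : ℤ), Q.IsDivisorial d w →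
          (∀ z ∈ A, 0 ≤ w (algebraMap K L z)) → w (algebraMap K L b₀) = 0 →
          Q.FormOrder w D' m → ov w G ≤ q * (1 + m) + maxP MM (wts w y)) →
      (∀ μ ∈ MM, ∀ j, (ordMono E (v j) : ℝ) / r +
        η * (if 0 < toricDisc f g c r E (v j) then 1 else 0) ≤
          ((∑ k, -μ k * v j k : ℤ) : ℝ) / q) →
      HasKltComplementOn D 𝒞 B n b₀ := by
  classical
  obtain ⟨e, rfl⟩ : ∃ e, p = e + 1 := ⟨p - 1, by omega⟩
  obtain ⟨k₀, hk₀, hmain⟩ := exists_exposX e q hq hε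
  have hJ : 0 < J.factorial := J.factorial_pos
  refine ⟨2 * k₀ * q * J.factorial, by positivity, ?_⟩
  rintro η n hη ⟨t₁, rfl⟩ hn K L _ _ _ _ _ _ J' d s M N hd y f g c v A b₀ D G Γ hΓ hcard hfield H
    hc hD 𝒞 B r ψ hP E hgen hsub hdisc ⟨δ, hδ, hlc⟩ hpsi MM hMM hlcM hlarge
  obtain ⟨ht, hkη⟩ := bound_k hk₀ hq hJ hη hn
  by_cases hb0 : b₀ = 0
  · refine ⟨1, one_ne_zero, fun C hC => ⟨?_, ?_⟩⟩
    · intro u p m k' _ hub
      rw [hb0, AddValuation.map_zero] at hub
      exact absurd hub (by simp)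
    · intro u m k' _ _ hub
      rw [hb0, AddValuation.map_zero] at hub
      exact absurd hub (by simp)
  set k : ℕ := 2 * k₀ * t₁ with hk
  have hk0 : 0 < k := by positivity
  have hk2 : 2 ≤ k := by
    have : 1 ≤ k₀ * t₁ := Nat.mul_pos hk₀ ht
    have h2 : k = 2 * (k₀ * t₁) := by rw [hk]; ring
    omega
  have hnn : 2 * k₀ * q * J.factorial * t₁ = k * q * J.factorial := by rw [hk]; ring
  rw [hnn]
  have hqQ : (0 : ℚ) < q := by exact_mod_cast hq
  have hqZ : (1 : ℤ) ≤ q := by exact_mod_cast hq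
  have hkZ : (2 : ℤ) ≤ k := by exact_mod_cast hk2
  -- the coefficients
  have hcqex : ∀ i, ∃ cq : ℕ, (cq : ℚ) = q * c i := by
    intro i
    obtain ⟨h1, z, hz⟩ := hc i
    have hz0 : 0 ≤ z := by
      have h3 : (0 : ℚ) ≤ z := by rw [← hz]; exact mul_nonneg hqQ.le h1
      exact_mod_cast h3
    refine ⟨z.toNat, ?_⟩
    rw [hz]
    have : ((z.toNat : ℤ) : ℚ) = z := by rw [Int.toNat_of_nonneg hz0]
    rw [← this, Int.cast_natCast]
  choose cq hcq using hcqex
  let κ : Fin N → ℕ := fun j => if 0 < toricDisc f g c r E (v j) then q else 0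
  let δ' : Fin N → ℝ := fun j => if 0 < toricDisc f g c r E (v j) then 1 else 0
  have hκδ : ∀ j, (κ j : ℝ) = q * δ' j := by
    intro j
    simp only [κ, δ']
    split_ifs <;> simp
  have hκ : ∀ j, (q : ℚ) * toricDisc f g c r E (v j) ≤ κ j := by
    intro j
    simp only [κ]
    split_ifs with h1
    · calc (q : ℚ) * toricDisc f g c r E (v j) ≤ q * 1 :=
            mul_le_mul_of_nonneg_left (hdisc j) hqQ.le
        _ = q := mul_one _
    · have h2 := mul_nonneg hqQ.le (sub_nonneg.2 (not_lt.1 h1))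
      simp only [zero_sub, mul_neg] at h2
      simp only [CharP.cast_eq_zero]
      linarith
  have hκi : ∀ i j, v i = v j → κ i = κ j := by
    intro i j hij
    simp only [κ, hij]
  have hκq : ∀ j, κ j ≤ q := by
    intro j
    simp only [κ]
    split_ifs
    · exact le_rfl
    · exact Nat.zero_le _
  -- the form upstairs
  haveI := H.finite
  haveI : Algebra.IsAlgebraic K L := Algebra.IsAlgebraic.of_finite K L
  haveI := H.ess
  haveI := H.functionField
  haveI : CharZero K := charZero_of_injective_algebraMap (algebraMap ℂ K).injective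
  obtain ⟨D', hD'⟩ := exists_ext (K := K) (L := L) H.trdegL D
  have hj : ∃ g, Q.jac D' g ≠ 0 := by
    obtain ⟨g, hg⟩ := hD
    exact ⟨_, by rw [H647.jac_map hD']; exact (map_ne_zero _).2 hg⟩
  by_cases hne : 𝒞.Nonempty
  swap
  · refine ⟨1, one_ne_zero, fun C hC => absurd ⟨C, hC⟩ hne⟩
  obtain ⟨C₀, hC₀⟩ := hne
  have hr : 0 < r := (hP.cartier C₀ hC₀).1
  have hrQ : (0 : ℚ) < r := by exact_mod_cast hr
  -- a model of the function field and the functions to be fixed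
  obtain ⟨e', rfl⟩ : ∃ e', d = e' + 1 := ⟨d - 1, by omega⟩
  obtain ⟨x, F, HX⟩ := exists_model H.trdegL
  obtain ⟨h, R⟩ := HX.exists_resForm hj
  obtain ⟨t, sg, hsg⟩ := exists_sigma (L := L) H.finiteType hb0
  let I := Option (Option (Fin (e + 2) ⊕ Fin t))
  let zz : I → L := fun o => o.elim h fun o => o.elim G fun o => Sum.elim y sg o
  obtain ⟨gx, hgx⟩ := exists_fixes HX (fun i => zz ((Fintype.equivFin I).symm i))
  have hfix : ∀ o : I, Fixes x gx (zz o) := by
    intro o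
    have h1 := hgx (Fintype.equivFin I o)
    rwa [Equiv.symm_apply_apply] at h1
  have hhF : Fixes x gx h := hfix none
  have hGF : Fixes x gx G := hfix (some none)
  have hyF : ∀ k, Fixes x gx (y k) := fun k => hfix (some (some (Sum.inl k)))
  have hsgF : ∀ i, Fixes x gx (sg i) := fun i => hfix (some (some (Sum.inr i)))
  have hlcX : ∀ (w : AddValuation L (WithTop ℤ)) (m : ℤ), Q.IsDivisorial (e' + 1) w →
      (∀ i, 0 ≤ w (sg i)) → Q.FormOrder w D' m →
      ov w G ≤ q * (1 + m) + maxP MM (wts w y) := by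
    intro w m hw hsw hm
    obtain ⟨hA, hb⟩ := (hsg w hw.const).1 hsw
    exact hlcM D' hD' w m hw hA hb hm
  obtain ⟨Ls, hLs1, hLs2⟩ := hmain f g v H.nonzero H.nonzero' c cq hcq r hr E κ hκ hκi hκq hpsi
  obtain ⟨Ee, hEe, hEe1, hEe2⟩ := exists_Ee hMM Ls k
  have hE1 : ∀ γ ∈ Ee, ∀ a, Z647.InCone v a →
      (k : ℚ) * q * ((ordMono E a : ℚ) / r) ≤ ((∑ i, γ i * a i : ℤ) : ℚ) :=
    fun γ hγ a ha => eff_expos hq hη hr hkη hsub hκδ hLs1 hlarge (hEe1 γ hγ) ha
  obtain ⟨σ, -, hσ⟩ := exists_shift Ee (fun γ => γ)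
  obtain ⟨S, hS1, hSg⟩ := exists_genS (coeffs F gx) (Ee.image fun γ => toE (σ + γ))
  have hS0 : S ≠ 0 := by
    intro h0
    rw [h0, support_zero] at hS1
    exact (hEe.image _).ne_empty hS1.symm
  have hwt : ∀ a, ∀ γ ∈ Ee, wtZ a (toE (σ + γ)) - ∑ i, σ i * a i = ∑ i, γ i * a i := by
    intro a γ hγ
    unfold wtZ
    rw [← Finset.sum_sub_distrib]
    refine Finset.sum_congr rfl fun i _ => ?_
    rw [toE_apply (hσ γ hγ) i, Pi.add_apply]; ring
  have hxS : aeval y S ≠ 0 := genS_aeval_ne HX H.coordinate hyF hS0 hSg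
  set φ₁ : L := phiOne y G (fun i : Fin 0 => (0 : MvPolynomial (Fin (e + 2)) ℂ)) k 1 (fun _ => 0)
    S σ with hφ₁
  have hφ₁0 : φ₁ ≠ 0 := phiOne_ne H.coordinate H.function (fun i => i.elim0) hxS σ
  have hov : ∀ w : AddValuation L (WithTop ℤ), ov w φ₁ =
      k * ov w G + ov w (aeval y S) - ∑ i, σ i * wts w y i := by
    intro w
    rw [hφ₁, ov_phiOne H.coordinate H.function (fun i => i.elim0) hxS σ w]
    simp
  obtain ⟨φ, hφ0, hφ⟩ := exists_normG hΓ hcard hfield φ₁ hφ₁0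
  have hnQ : (0 : ℚ) < ((k * q * J.factorial : ℕ) : ℚ) := by
    have : 0 < k * q * J.factorial := by positivity
    exact_mod_cast this
  have hfixK : ∀ τ ∈ Γ, ∀ z : K, τ (algebraMap K L z) = algebraMap K L z := fun τ hτ z =>
    (hfield _).1 ⟨z, rfl⟩ τ hτ
  refine ⟨φ, hφ0, ?_⟩
  intro C hC
  have hψ : ψ C ≠ 0 := (hP.cartier C hC).2.1
  constructor
  · intro u p m k' hup _ hm hk'
    have hu := hup.1
    have hoverC := hup.2.1
    obtain ⟨w, e₁, he₁, hw1, hvw⟩ := exists_extension (L := L) u hu.normalized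
    have he₁Q : (0 : ℚ) < e₁ := by exact_mod_cast he₁
    have hloc := (hP.cartier C hC).2.2 u p m (ov u (ψ C)) hup le_top hm (coe_ov u hψ).symm
    have h1 := (hφ w u e₁ hvw).1 ((k : ℚ) * q * (e₁ * ov u (ψ C) / r)) (by
      intro τ hτ
      have hvw' : ∀ g : K, (w.comap (τ : L →+* L)) (algebraMap K L g) = e₁ • u g := by
        intro g
        rw [comap_apply', hfixK τ hτ, hvw]
      have hw1' := comap_normalized hw1 τ
      have hw' : Q.IsDivisorial (e' + 1) (w.comap (τ : L →+* L)) :=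
        divisorial_iff.2 (isDivisorial_of_ext (divisorial_iff.1 hu) hw1' hvw')
      have hcone : Z647.InCone v (wts (w.comap (τ : L →+* L)) y) := by
        apply H.inCone
        intro a ha
        rw [hvw']
        exact nsmul_nonneg (hoverC ⟨a, hP.le C hC ha⟩) _
      have h2 := hov (w.comap (τ : L →+* L))
      rw [ov_comap' w τ φ₁] at h2
      have h3 := hgen C hC u (w.comap (τ : L →+* L)) e₁ (ov u (ψ C)) _ _ hu hoverC he₁ hw1' hvw'
        (coe_ov u hψ).symm (coe_ov _ H.function).symm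
        (fun k => (coe_ov (w.comap (τ : L →+* L)) (H.coordinate k)).symm)
      obtain ⟨γ', hγ', hγ''⟩ := (isMinZ_minWt hS0 (wts (w.comap (τ : L →+* L)) y)).1
      have hSl := ov_lower hw'.const H.coordinate hxS
        (isMinZ_minWt hS0 (wts (w.comap (τ : L →+* L)) y))
      rw [hS1] at hγ'
      obtain ⟨γ, hγ, rfl⟩ := Finset.mem_image.1 hγ'
      have h4 := hwt (wts (w.comap (τ : L →+* L)) y) γ hγ
      have h5 := hE1 γ hγ _ hcone
      rw [← h4, hγ''] at h5
      rw [h2, h3]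
      have h6 : (k : ℚ) * q * ((r * ((ov (w.comap (τ : L →+* L)) G : ℚ) / q) +
          ordMono E (fun k => ov (w.comap (τ : L →+* L)) (y k))) / r) =
          k * ov (w.comap (τ : L →+* L)) G +
          k * q * ((ordMono E (wts (w.comap (τ : L →+* L)) y) : ℚ) / r) := by
        show _ = k * ov (w.comap (τ : L →+* L)) G +
          k * q * ((ordMono E (fun k => ov (w.comap (τ : L →+* L)) (y k)) : ℚ) / r)
        field_simp
      rw [h6]
      have h7 : (minWt S (wts (w.comap (τ : L →+* L)) y) : ℚ) ≤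
          ov (w.comap (τ : L →+* L)) (aeval y S) := by exact_mod_cast hSl
      push_cast at h5 ⊢
      linarith)
    have h2 : ov u φ = k' := ov_eq_of u hk'
    rw [h2] at h1
    have h3 : (ov u (ψ C) : ℚ) / r ≤ (k' : ℚ) / ((k * q * J.factorial : ℕ) : ℚ) := by
      rw [div_le_div_iff₀ hrQ hnQ]
      have h4 : (J.factorial : ℚ) * ((k : ℚ) * q * (e₁ * ov u (ψ C) / r)) * r =
          e₁ * (ov u (ψ C) * ((k * q * J.factorial : ℕ) : ℚ)) := by
        push_cast
        field_simp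
      have h5 := mul_le_mul_of_nonneg_right h1 hrQ.le
      rw [h4] at h5
      have h6 : (e₁ : ℚ) * (ov u (ψ C) * ((k * q * J.factorial : ℕ) : ℚ)) ≤ e₁ * (k' * r) := by
        linarith
      exact le_of_mul_le_mul_left h6 he₁Q
    have h4 : (ov u (ψ C) : ℚ) / r = m + (B C).coeff p := by
      rw [hloc]; field_simp
    rw [h4] at h3
    have h5 := hP.effective C hC p
    constructor <;> linarith
  · intro u m k' hu hoverC hub hm hk'
    obtain ⟨w, e₁, he₁, hw1, hvw⟩ := exists_extension (L := L) u hu.normalized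
    have he₁Q : (0 : ℚ) < e₁ := by exact_mod_cast he₁
    have h1 := (hφ w u e₁ hvw).2 ((k : ℚ) * q * (e₁ * (1 + m))) (by
      intro τ hτ
      have hvw' : ∀ g : K, (w.comap (τ : L →+* L)) (algebraMap K L g) = e₁ • u g := by
        intro g
        rw [comap_apply', hfixK τ hτ, hvw]
      have hw1' := comap_normalized hw1 τ
      have hw' : Q.IsDivisorial (e' + 1) (w.comap (τ : L →+* L)) :=
        divisorial_iff.2 (isDivisorial_of_ext (divisorial_iff.1 hu) hw1' hvw')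
      obtain ⟨m', hm'⟩ := order_exists hd H.trdegL D' hj hw'
      have htr := order_transfer hd H.dimension H.trdegL hD hD' hu hw1' he₁ hvw' hm hm'
      have hA : ∀ a ∈ A, 0 ≤ (w.comap (τ : L →+* L)) (algebraMap K L a) := by
        intro a ha
        rw [hvw']
        exact nsmul_nonneg (hoverC ⟨a, hP.le C hC ha⟩) _
      have hcone : Z647.InCone v (wts (w.comap (τ : L →+* L)) y) := H.inCone hA
      have hsw : ∀ i, 0 ≤ (w.comap (τ : L →+* L)) (sg i) :=
        (hsg _ hw'.const).2 ⟨hA, by rw [hvw', hub, nsmul_zero]⟩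
      have hbert := H108.bertiniX HX R hhF H.coordinate hyF H.function hGF hsgF (q := q)
        (Λ := maxP MM) (fun β a a' hβa => maxP_mul hMM β a a' hβa) (maxP_zero hMM) hlcX hS0
        hSg hw' hsw hm'
      have hlcw := lcG hD' hP hgen H hd hD hδ hlc hw' hA hm'
      have h2 := klt_phiF H.coordinate H.nonzero H.equation H.function hS0 hxS hS1 hσ
        hMM hk2 hq hEe2 hLs2 hw' hcone hbert (fun ha0 => by
          rw [ha0, ordMono_zero] at hlcw
          exact lt_of_div hq hδ hlcw)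
      rw [← hφ₁, ov_comap' w τ φ₁] at h2
      have hgoal : ov w (τ φ₁) < k * q * (1 + m') := h2
      have h3 : ((ov w (τ φ₁) : ℤ) : ℚ) < ((k * q * (1 + m') : ℤ) : ℚ) := by exact_mod_cast hgoal
      rw [htr] at h3
      push_cast at h3
      exact h3)
    have h2 : ov u φ = k' := ov_eq_of u hk'
    rw [h2] at h1
    have h3 : (e₁ : ℚ) * k' < e₁ * (((k * q * J.factorial : ℕ) : ℚ) * (1 + m)) := by
      push_cast
      calc (e₁ : ℚ) * k' < _ := h1
        _ = _ := by ring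
    have h4 := lt_of_mul_lt_mul_left h3 he₁Q.le
    have h6 : (k' : ℚ) / ((k * q * J.factorial : ℕ) : ℚ) < 1 + m := by
      rw [div_lt_iff₀ hnQ, mul_comm]; exact h4
    linarith

end Vale.Agent.P283.H646L
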