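import Vale.Agent.P283.H646L.MainX
import Vale.Agent.P283.O647.F1
import Vale.Agent.P283.O647.F2
import Vale.Agent.P283.O647.F5

/-!
From log canonical complements to klt complements for pairs with a common finite cover with a
hypersurface of a toric variety.
-/

set_option linter.all false

namespace Vale.Agent.P283.H646L

open MvPolynomial Finset
open Vale.Agent.P283.Z647 Vale.Agent.P283.H108
open Vale.Agent.P283.H647 (ResForm HypData order_exists order_unique exists_ext jac_map
  ov_algebraMap)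
open Vale.Agent.P283 (ov coe_ov ov_eq_of exists_restriction exists_extension divisorial_iff
  isDivisorial_of_ext)

section Res

variable {K L : Type} [Field K] [Field L] [Algebra ℂ K] [Algebra ℂ L] [Algebra K L]
  [IsScalarTower ℂ K L]

/-- Automorphisms over `K` as automorphisms over `ℂ`. -/
def resHomX (K L : Type) [Field K] [Field L] [Algebra ℂ K] [Algebra ℂ L] [Algebra K L]
    [IsScalarTower ℂ K L] : (L ≃ₐ[K] L) →* (L ≃ₐ[ℂ] L) where
  toFun σ := σ.restrictScalars ℂ
  map_one' := rfl
  map_mul' _ _ := rfl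

theorem resHomX_inj : Function.Injective (resHomX K L) := by
  intro σ τ h
  ext x
  exact congrArg (fun f : L ≃ₐ[ℂ] L => f x) h

theorem card_rangeX [FiniteDimensional K L] :
    Nat.card (resHomX K L).range = Nat.card (L ≃ₐ[K] L) :=
  Nat.card_congr (MonoidHom.ofInjective (resHomX_inj (K := K) (L := L))).toEquiv.symm

theorem finite_rangeX [FiniteDimensional K L] : Finite (resHomX K L).range :=
  Finite.of_equiv _ (MonoidHom.ofInjective (resHomX_inj (K := K) (L := L))).toEquiv

end Res

theorem mem_adjoin_upX {d : ℕ} {L L' : Type} [Field L] [Field L'] [Algebra ℂ L] [Algebra ℂ L']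
    [Algebra L L'] [IsScalarTower ℂ L L'] {y : Fin (d + 1) → L} {s : L}
    (hs : s ∈ IntermediateField.adjoin ℂ (Set.range y)) :
    algebraMap L L' s ∈ IntermediateField.adjoin ℂ (Set.range fun k => algebraMap L L' (y k)) := by
  rw [IntermediateField.mem_adjoin_range_iff] at hs ⊢
  obtain ⟨P, Q, rfl⟩ := hs
  refine ⟨P, Q, ?_⟩
  rw [map_div₀, aeval_map, aeval_map]

theorem coreCX (d : ℕ) (hd : 0 < d) (J q : ℕ) (hq : 0 < q) (ε : ℝ) (hε : 0 < ε) :
    ∃ c₀ : ℕ, 0 < c₀ ∧ ∀ (η : ℝ) (n : ℕ), 0 < η → c₀ ∣ n → (c₀ : ℝ) * (1 + 1 / η) ≤ n →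
    ∀ (K L : Type) [Field K] [Field L] [Algebra ℂ K] [Algebra ℂ L] [Algebra K L]
      [IsScalarTower ℂ K L] (s M N : ℕ) (y : Fin (d + 1) → L) (f : MvPolynomial (Fin (d + 1)) ℂ)
      (g : Fin s → MvPolynomial (Fin (d + 1)) ℂ) (c : Fin s → ℚ) (v : Fin N → Fin (d + 1) → ℤ)
      (A : Subalgebra ℂ K), IsCommonCover J y f g v A →
      (∀ i, 0 ≤ c i ∧ ∃ z : ℤ, (q : ℚ) * c i = z) →
    ∀ D : Fin d → Derivation ℂ K K, (∃ z, Q.jac D z ≠ 0) →
    ∀ (𝒞 : Set (Subalgebra ℂ K)) (B : ∀ C : Subalgebra ℂ K, Q.QDivisor C) (r : ℕ)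
      (ψ : Subalgebra ℂ K → K), H207.IsPair D A 𝒞 B r ψ →
    ∀ (E : Fin (M + 1) → Fin (d + 1) → ℤ), IsGeneratedM y f g c E D 𝒞 r ψ →
      IsSubdivision v E →
      (∀ j, toricDisc f g c r E (v j) ≤ 1) →
      (∃ δ : ℝ, 0 < δ ∧ ∀ C ∈ 𝒞, Q.IsEpsLC D (B C) δ) → PsiBound v f g c r E ε →
    ∀ (b₀ : K) (t : ℕ) (s₀ : Fin t → L), IsRegularOver d y A b₀ s₀ →
    ∀ (S₀ : MvPolynomial (Fin (d + 1)) ℂ) (N₀ : Fin (d + 1) → ℤ),
      IsLcComplementOn y f g c v r E q η s₀ S₀ N₀ → HasKltComplementOn D 𝒞 B n b₀ := by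
  obtain ⟨c₀, hc₀, hmain⟩ := coreX d hd J.factorial q hq ε hε
  refine ⟨c₀, hc₀, ?_⟩
  intro η n hη hdvd hn K L _ _ _ _ _ _ s M N y f g c v A H hc D hD 𝒞 B r ψ hP E hgen hsub hdisc hlc
    hpsi b₀ t s₀ HU S₀ N₀ HLC
  have hs₀ := HU.1
  have hinv := HU.2
  haveI := H.finite
  haveI : CharZero K := charZero_of_injective_algebraMap (algebraMap ℂ K).injective
  obtain ⟨L', iF, iK, iL, hT, hGal, hfin, hcard⟩ := O647.f1 K L
  letI : Algebra ℂ L' := ((algebraMap K L').comp (algebraMap ℂ K)).toAlgebra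
  haveI : IsScalarTower ℂ K L' := IsScalarTower.of_algebraMap_eq fun _ => rfl
  haveI : IsScalarTower ℂ L L' := IsScalarTower.of_algebraMap_eq fun c => by
    rw [IsScalarTower.algebraMap_apply ℂ K L, ← IsScalarTower.algebraMap_apply K L L']
    rfl
  haveI : FiniteDimensional L L' := FiniteDimensional.right K L L'
  have hcard' : Nat.card (L' ≃ₐ[K] L') ≤ J.factorial :=
    le_trans hcard (Nat.factorial_le H.degree)
  have HL : FinData y f := ⟨H.finiteDim, H.equation, H.nonzero, H.coordinate⟩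
  have HL' : FinData (fun k => algebraMap L L' (y k)) f := finData_up HL
  have hmono : ∀ u : Fin (d + 1) → ℤ,
      (∏ k, algebraMap L L' (y k) ^ u k) = algebraMap L L' (∏ k, y k ^ u k) := by
    intro u
    rw [map_prod]
    exact Finset.prod_congr rfl fun k _ => by rw [map_zpow₀]
  have HN : IsXCover J.factorial (fun k => algebraMap L L' (y k)) f g v
      (resHomX K L').range A b₀ (fun i => algebraMap L L' (s₀ i)) :=
    { finiteDim := HL'.fin
      equation := HL'.ker
      nonzero := H.nonzero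
      coordinate := HL'.x0
      divisor := fun i => by
        rw [aeval_map]; exact (map_ne_zero _).2 (H.divisor i)
      func := fun i => mem_adjoin_upX (hs₀ i)
      inv := by
        haveI := HL.ess
        intro w' hw' hA hb i
        obtain ⟨w, e', he', hw, hww⟩ := exists_restriction (K := L) d w' (divisorial_iff.1 hw')
        have h1 : 0 ≤ w (s₀ i) := hinv w (divisorial_iff.2 hw) (fun a ha => by
          have h2 := hA a ha
          rw [IsScalarTower.algebraMap_apply K L L', hww] at h2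
          exact nonneg_of_nsmul he' h2) (by
          rw [IsScalarTower.algebraMap_apply K L L', hww] at hb
          exact zero_of_nsmul he' hb) i
        rw [hww]
        exact nsmul_nonneg h1 _
      finite := finite_rangeX
      card := by
        rw [card_rangeX]
        exact hcard'
      field := by
        intro x
        rw [IsGalois.mem_range_algebraMap_iff_fixed]
        constructor
        · rintro h _ ⟨σ, rfl⟩
          exact h σ
        · intro h σ
          exact h _ ⟨σ, rfl⟩
      finiteCover := by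
        intro u hu
        have h1 := H.monomials u hu
        rw [hmono]
        refine IsIntegral.map_of_comp_eq (RingHom.id A) (algebraMap L L') ?_ h1
        ext x
        exact IsScalarTower.algebraMap_apply K L L' (x : K) }
  exact hmain η n hη hdvd hn K L' s M N _ f g c v _ A b₀ t _ HN hc D hD 𝒞 B r ψ hP E
    (gen_up hd HL H.divisor hD hgen) hsub hdisc hlc hpsi S₀ N₀
    (lcc_up HL HL' hd H.divisor HLC)

end Vale.Agent.P283.H646L
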