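import Vale.Agent.P283.H108.DefsFib

/-!
Pairs with a proper morphism `X' → Z = Spec A` such that a finite cover of `X'` has a rational map
to a torus, and their log canonical complements.
-/

namespace Vale.Agent.P283.H646L

open MvPolynomial Vale.Agent.P283.Q Vale.Agent.P283.Z647 Vale.Agent.P283.H108

variable {d p N M s : ℕ}

/-- `K` is the function field of a variety `X'` of dimension `d` and `L` is an extension of `K` of
degree at most `J`, the function field of a finite cover `Y'` of `X'`. The nonzero functions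
`y_0, …, y_p` on `Y'` satisfy the equation `f = 0`, so they define a rational map from `Y'` to the
hypersurface `{f = 0}` in the torus; it does not have to be dominant or generically finite, and `f`
does not have to be irreducible. `Z = Spec A` is an affine variety such that the monomials `y^u`
with `u ∈ τ^∨` are regular on the normalization `Z'` of `Z` in `L`, where the cone `τ` is spanned
by the vectors `v j`. So there is a morphism from `Z'` to the affine toric variety
`Spec ℂ[y^u : u ∈ τ^∨]`. The cone `τ` may contain lines; it is the whole space if `Z` is a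
point. -/
structure IsMonomialModel (d J : ℕ) {K L : Type} [Field K] [Field L] [Algebra ℂ K] [Algebra ℂ L]
    [Algebra K L] (y : Fin (p + 1) → L) (f : MvPolynomial (Fin (p + 1)) ℂ)
    (v : Fin N → Fin (p + 1) → ℤ) (A : Subalgebra ℂ K) : Prop where
  functionField : Algebra.EssFiniteType ℂ K
  dimension : Algebra.trdeg ℂ K = (d : ℕ)
  finite : FiniteDimensional K L
  degree : Module.finrank K L ≤ J
  coordinate : ∀ k, y k ≠ 0
  equation : aeval y f = 0
  nonzero : f ≠ 0
  finiteType : A.FG
  monomials : ∀ u : Fin (p + 1) → ℤ, (∀ j, 0 ≤ ∑ k, v j k * u k) →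
    IsIntegral A (∏ k, y k ^ u k)

/-- Over the open subset `{b ≠ 0}` of `Z`, the pull-back `(Y', B_{Y'})` of `(X', B')`, where
`q (K_{Y'} + B_{Y'}) = div(G) + (q / r) F` as in `IsGeneratedG`, has a log canonical `q`-complement
`Λ ≥ B_{Y'}` with `Λ ≥ B_{Y'} + η` along the toric divisors on which the toric log discrepancy
`toricDisc` of `(Y', B_{Y'})` is positive. Here `K_{Y'}` is the divisor of the pull-back of the
rational form `ω` on `X'` which is given by the derivations `D`; the pull-back is given by the
extension `D'` of `D`. And `q (K_{Y'} + Λ) = div(G) + div(S(y) / y^{N₀})` for a polynomial `S`.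
The log discrepancy of `(Y', Λ)` is not negative along every prime divisor `w` over `Y'` whose
centre on `Z` meets `{b ≠ 0}`, with `w (b) = 0`. The condition `Λ ≥ B_{Y'}` says that
`⟨ν - N₀, v_j⟩ / q ≥ ord(F) / r` for all the monomials `y^ν` of `S` and all `j`, where `ord(F)` is
the order of `F` along the toric divisor of `v_j`; and the left-hand side is at least
`ord(F) / r + η` if the toric log discrepancy along this divisor is positive. -/
structure IsLcComplementG {K L : Type} [Field K] [Field L] [Algebra ℂ K] [Algebra ℂ L]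
    [Algebra K L] (y : Fin (p + 1) → L) (f : MvPolynomial (Fin (p + 1)) ℂ)
    (g : Fin s → MvPolynomial (Fin (p + 1)) ℂ) (c : Fin s → ℚ) (v : Fin N → Fin (p + 1) → ℤ)
    (A : Subalgebra ℂ K) (b : K) (D : Fin d → Derivation ℂ K K) (G : L) (r : ℕ)
    (E : Fin (M + 1) → Fin (p + 1) → ℤ) (q : ℕ) (η : ℝ) (S : MvPolynomial (Fin (p + 1)) ℂ)
    (N₀ : Fin (p + 1) → ℤ) : Prop where
  ne_zero : aeval y S ≠ 0
  lc : ∀ D' : Fin d → Derivation ℂ L L,
    (∀ (i : Fin d) (z : K), D' i (algebraMap K L z) = algebraMap K L (D i z)) →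
    ∀ (w : AddValuation L (WithTop ℤ)) (m l l' : ℤ) (a : Fin (p + 1) → ℤ), IsDivisorial d w →
      (∀ z ∈ A, 0 ≤ w (algebraMap K L z)) → w (algebraMap K L b) = 0 → FormOrder w D' m →
      w G = (l : WithTop ℤ) → (∀ k, w (y k) = (a k : WithTop ℤ)) →
      w (aeval y S) = (l' : WithTop ℤ) →
        0 ≤ 1 + m - ((l + l' - ∑ k, N₀ k * a k : ℤ) : ℚ) / q
  large : ∀ ν ∈ S.support, ∀ j,
    (ordMono E (v j) : ℝ) / r ≤ ((∑ k, ((ν k : ℤ) - N₀ k) * v j k : ℤ) : ℝ) / q ∧
      (0 < toricDisc f g c r E (v j) →
        (ordMono E (v j) : ℝ) / r + η ≤ ((∑ k, ((ν k : ℤ) - N₀ k) * v j k : ℤ) : ℝ) / q)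

end Vale.Agent.P283.H646L
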