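import Vale.Agent.P283.H646.Defs

/-!
Quotients `X = Y / G` of the affine space `Y = {x₀ = g(z₁, …, z_d)}`: log canonical complements
upstairs.
-/

namespace Vale.Agent.P283.Q.H646L

open MvPolynomial Vale.Agent.P283.Q Vale.Agent.P283.Q.H646

variable {L : Type} [Field L] [Algebra ℂ L] {d : ℕ}

/-- The group `G` has the subgroup `G₀` of index at most `J`, which acts diagonally on `Y`, and on
the open subset `{E ≠ 0}` of `Y` the pair `(Y, B_Y + η ∑ (1 - b_j) div(z_j))`,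
`B_Y = ∑ b_j div(z_j) + (1 / Q₀) div(f)`, has the `G₀`-invariant log canonical `Q₀`-complement
`Λ⁺ = ∑ (1 - N_j / Q₀) div(z_j) + (1 / Q₀) div(f s(z))`. Here `s` is a polynomial, and
`Q₀ (K_Y + Λ⁺) = div(f s(z) / z^N)`, with `K_Y` the divisor of `dz₁ ∧ ⋯ ∧ dz_d / (z₁ ⋯ z_d)`; the
function `f s(z) / z^N` is invariant under `G₀`. The condition
`Λ⁺ ≥ B_Y + η ∑ (1 - b_j) div(z_j)` on `{E ≠ 0}` says that, for every `j`,
`N_j - ν_j ≤ Q₀ (1 - η) (1 - b_j)` for all the monomials `z^ν` of `s`, or `z_j` divides `E`. -/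
structure IsLcComplement (x : Fin (0 + 1) → L) (z : Fin d → L) (b : Fin d → ℚ) (f : L) (J Q₀ : ℕ)
    (η : ℝ) (G G₀ : Subgroup (L ≃ₐ[ℂ] L)) (s : MvPolynomial (Fin d) ℂ) (N : Fin d → ℕ) (E : L) :
    Prop where
  le : G₀ ≤ G
  index : G₀.relIndex G ≤ J
  diagonal : IsDiagonal x z G₀
  mem : E ∈ OY x z
  ne_zero : E ≠ 0
  s_ne_zero : s ≠ 0
  inv : ∀ τ ∈ G₀, τ (f * aeval z s / ∏ j, z j ^ N j) = f * aeval z s / ∏ j, z j ^ N j
  bound : ∀ j, (∀ ν ∈ s.support, (N j : ℝ) - ν j ≤ Q₀ * (1 - η) * (1 - b j)) ∨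
    ∃ y ∈ OY x z, E = z j * y
  lc : IsLcOn x z Q₀ N (f * aeval z s) E

end Vale.Agent.P283.Q.H646L
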