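import Vale.Agent.P283.H646L.UpF

/-!
From log canonical complements to klt complements for pairs with a finite cover with a rational map
to a torus.
-/

set_option linter.all false

namespace Vale.Agent.P283.H646L

open MvPolynomial Finset
open Vale.Agent.P283.Z647 Vale.Agent.P283.H108
open Vale.Agent.P283.H647 (ResForm HypData order_exists order_unique order_transfer exists_ext
  jac_map ov_algebraMap)
open Vale.Agent.P283 (ov ov_mul ov_div ov_pow ov_prod ov_zpow coe_ov ov_eq_of nonneg_iff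
  exists_restriction exists_extension divisorial_iff isDivisorial_of_ext comap_normalized
  comap_apply' centreIdeal ne_zero_of_eq)

/-- The step to a Galois cover. -/
theorem galF {J : ℕ} {K L' : Type} [Field K] [Field L'] [Algebra ℂ K] [Algebra ℂ L']
    [Algebra K L'] [IsScalarTower ℂ K L'] [FiniteDimensional K L'] [IsGalois K L']
    (hcard : Nat.card (L' ≃ₐ[K] L') ≤ J) :
    ∃ Γ : Subgroup (L' ≃ₐ[ℂ] L'), Finite Γ ∧ Nat.card Γ ≤ J ∧
      ∀ z : L', z ∈ Set.range (algebraMap K L') ↔ ∀ τ ∈ Γ, τ z = z := by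
  refine ⟨(resHomX K L').range, finite_rangeX, by rw [card_rangeX]; exact hcard, ?_⟩
  intro x
  rw [IsGalois.mem_range_algebraMap_iff_fixed]
  constructor
  · rintro h _ ⟨σ, rfl⟩
    exact h σ
  · intro h σ
    exact h _ ⟨σ, rfl⟩

theorem large_F {p N s M q r : ℕ} {f : MvPolynomial (Fin (p + 1)) ℂ}
    {g : Fin s → MvPolynomial (Fin (p + 1)) ℂ} {c : Fin s → ℚ} {v : Fin N → Fin (p + 1) → ℤ}
    {E : Fin (M + 1) → Fin (p + 1) → ℤ} {η : ℝ} {S : MvPolynomial (Fin (p + 1)) ℂ}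
    {N₀ : Fin (p + 1) → ℤ} (h : ∀ ν ∈ S.support, ∀ j,
    (ordMono E (v j) : ℝ) / r ≤ ((∑ k, ((ν k : ℤ) - N₀ k) * v j k : ℤ) : ℝ) / q ∧
      (0 < toricDisc f g c r E (v j) →
        (ordMono E (v j) : ℝ) / r + η ≤ ((∑ k, ((ν k : ℤ) - N₀ k) * v j k : ℤ) : ℝ) / q)) :
    ∀ μ ∈ (S.support.image fun ν => fun j => N₀ j - (ν j : ℤ)), ∀ j,
      (ordMono E (v j) : ℝ) / r + η * (if 0 < toricDisc f g c r E (v j) then 1 else 0) ≤
          ((∑ k, -μ k * v j k : ℤ) : ℝ) / q := by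
  classical
  intro μ hμ j
  obtain ⟨ν, hν, rfl⟩ := Finset.mem_image.1 hμ
  obtain ⟨h1, h2⟩ := h ν hν j
  simp only [neg_sub]
  split_ifs with h3
  · rw [mul_one]; exact h2 h3
  · rw [mul_zero, add_zero]; exact h1

theorem coreFX (p : ℕ) (hp : 0 < p) (J q : ℕ) (hq : 0 < q) (ε : ℝ) (hε : 0 < ε) :
    ∃ c₀ : ℕ, 0 < c₀ ∧ ∀ (η : ℝ) (n : ℕ), 0 < η → c₀ ∣ n → (c₀ : ℝ) * (1 + 1 / η) ≤ n →
    ∀ (K L : Type) [Field K] [Field L] [Algebra ℂ K] [Algebra ℂ L] [Algebra K L]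
      [IsScalarTower ℂ K L] (d s M N : ℕ) (y : Fin (p + 1) → L)
      (f : MvPolynomial (Fin (p + 1)) ℂ)
      (g : Fin s → MvPolynomial (Fin (p + 1)) ℂ) (c : Fin s → ℚ) (v : Fin N → Fin (p + 1) → ℤ)
      (A : Subalgebra ℂ K), 0 < d → IsMonomialModel d J y f v A →
      (∀ i, g i ≠ 0 ∧ 0 ≤ c i ∧ ∃ z : ℤ, (q : ℚ) * c i = z) →
    ∀ D : Fin d → Derivation ℂ K K, (∃ z, Q.jac D z ≠ 0) →
    ∀ (𝒞 : Set (Subalgebra ℂ K)) (B : ∀ C : Subalgebra ℂ K, Q.QDivisor C) (r : ℕ)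
      (ψ : Subalgebra ℂ K → K), H207.IsPair D A 𝒞 B r ψ →
    ∀ (G : L) (E : Fin (M + 1) → Fin (p + 1) → ℤ), G ≠ 0 → IsGeneratedG d q y G E 𝒞 r ψ →
      IsSubdivision v E →
      (∀ j, toricDisc f g c r E (v j) ≤ 1) →
      (∃ δ : ℝ, 0 < δ ∧ ∀ C ∈ 𝒞, Q.IsEpsLC D (B C) δ) → IsToricallyEpsLC v f g c r E ε →
    ∀ (b : K) (S : MvPolynomial (Fin (p + 1)) ℂ) (N₀ : Fin (p + 1) → ℤ),
      IsLcComplementG y f g c v A b D G r E q η S N₀ → HasKltComplementOn D 𝒞 B n b := by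
  classical
  obtain ⟨c₀, hc₀, hmain⟩ := coreF p hp J.factorial q hq ε hε
  refine ⟨c₀, hc₀, ?_⟩
  intro η n hη hdvd hn K L _ _ _ _ _ _ d s M N y f g c v A hd HM hgc D hD 𝒞 B r ψ hP G E hG hgen
    hsub hdisc hlc hpsi b S N₀ HL
  have H : IsLcModelOn J q y f g c v A 0 D G := HM.toModel (fun i => (hgc i).1) hG
  haveI := H.finite
  haveI : CharZero K := charZero_of_injective_algebraMap (algebraMap ℂ K).injective
  obtain ⟨L', iF, iK, iL, hT, hGal, hfin, hcard⟩ := O647.f1 K L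
  letI : Algebra ℂ L' := ((algebraMap K L').comp (algebraMap ℂ K)).toAlgebra
  haveI : IsScalarTower ℂ K L' := IsScalarTower.of_algebraMap_eq fun _ => rfl
  haveI : IsScalarTower ℂ L L' := IsScalarTower.of_algebraMap_eq fun c => by
    rw [IsScalarTower.algebraMap_apply ℂ K L, ← IsScalarTower.algebraMap_apply K L L']
    rfl
  have hcard' : Nat.card (L' ≃ₐ[K] L') ≤ J.factorial :=
    le_trans hcard (Nat.factorial_le H.degree)
  have HL' : IsLcComplementG (fun k => algebraMap L L' (y k)) f g c v A b D (algebraMap L L' G) r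
    E q η S N₀ := lccG_up hd hq hD H HL
  have H' : IsLcModelOn (Module.finrank K L') q (fun k => algebraMap L L' (y k)) f g c v A 0 D
    (algebraMap L L' G) := (modelF_up HM).toModel (fun i => (hgc i).1) ((map_ne_zero _).2 hG)
  have hS0 : S ≠ 0 := by
    intro h0
    exact HL.ne_zero (by rw [h0, map_zero])
  obtain ⟨Γ, hΓ, hΓc, hΓf⟩ := galF hcard'
  have hup := gen_upF (L' := L') H hgen
  have hbert := fun D' hD' w m hw hA hb hm =>
    bert_condF (K := K) (L := L') hq H' HL' D' hD' w m hw hA hb hm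
  have hpsi' := (psiBound_iffX H.nonzero).1 hpsi
  have hla := large_F HL.large
  have hne : (S.support.image fun ν => fun j => N₀ j - (ν j : ℤ)).Nonempty :=
    (support_nonempty.2 hS0).image _
  refine hmain η n hη hdvd hn K L' _ d s M N hd _ f g c v A b D _ Γ hΓ hΓc hΓf H'
    (fun i => (hgc i).2) hD 𝒞 B r ψ hP E hup hsub hdisc hlc hpsi' _ hne hbert hla

theorem coreFinalF (p : ℕ) (hp : 0 < p) (J q : ℕ) (hq : 0 < q) (ε : ℝ) (hε : 0 < ε) :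
    ∃ c₀ : ℕ, 0 < c₀ ∧ ∀ (η : ℝ) (n : ℕ), 0 < η → c₀ ∣ n → (c₀ : ℝ) * (1 + 1 / η) ≤ n →
    ∀ (K L : Type) [Field K] [Field L] [Algebra ℂ K] [Algebra ℂ L] [Algebra K L]
      [IsScalarTower ℂ K L] (d s M N : ℕ) (y : Fin (p + 1) → L)
      (f : MvPolynomial (Fin (p + 1)) ℂ)
      (g : Fin s → MvPolynomial (Fin (p + 1)) ℂ) (c : Fin s → ℚ) (v : Fin N → Fin (p + 1) → ℤ)
      (A : Subalgebra ℂ K), 0 < d → IsMonomialModel d J y f v A →
      (∀ i, g i ≠ 0 ∧ 0 ≤ c i ∧ ∃ z : ℤ, (q : ℚ) * c i = z) →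
    ∀ D : Fin d → Derivation ℂ K K, (∃ z, Q.jac D z ≠ 0) →
    ∀ (𝒞 : Set (Subalgebra ℂ K)) (B : ∀ C : Subalgebra ℂ K, Q.QDivisor C) (r : ℕ)
      (ψ : Subalgebra ℂ K → K), H207.IsPair D A 𝒞 B r ψ →
    ∀ (G : L) (E : Fin (M + 1) → Fin (p + 1) → ℤ), G ≠ 0 → IsGeneratedG d q y G E 𝒞 r ψ →
      IsSubdivision v E →
      (∀ j, toricDisc f g c r E (v j) ≤ 1) →
      ((∃ δ : ℝ, 0 < δ ∧ ∀ C ∈ 𝒞, Q.IsEpsLC D (B C) δ) ∧ IsToricallyEpsLC v f g c r E ε ∨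
        (∀ C ∈ 𝒞, Q.IsEpsLC D (B C) ε) ∧ HasLcPlaces J q y f g c v A D G) →
    ∀ (b : K) (S : MvPolynomial (Fin (p + 1)) ℂ) (N₀ : Fin (p + 1) → ℤ),
      IsLcComplementG y f g c v A b D G r E q η S N₀ → HasKltComplementOn D 𝒞 B n b := by
  have hε' : 0 < min ε (ε / (J + 1 : ℕ)) := lt_min hε (div_pos hε (by positivity))
  obtain ⟨c₀, hc₀, hmain⟩ := coreFX p hp J q hq _ hε'
  refine ⟨c₀, hc₀, ?_⟩
  intro η n hη hdvd hn K L _ _ _ _ _ _ d s M N y f g c v A hd HM hgc D hD 𝒞 B r ψ hP G E hG hgen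
    hsub hdisc hor b S N₀ HL
  have H : IsLcModelOn J q y f g c v A 0 D G := HM.toModel (fun i => (hgc i).1) hG
  rcases hor with ⟨hklt, htor⟩ | ⟨hlc, hpl⟩
  · exact hmain η n hη hdvd hn K L d s M N y f g c v A hd HM hgc D hD 𝒞 B r ψ hP G E hG hgen hsub
      hdisc hklt (fun a h1 h2 h3 => le_trans (min_le_left _ _) (htor a h1 h2 h3)) b S N₀ HL
  · have h4 := toric_of_placesX H hd hD hP hgen hε hlc hpl
    exact hmain η n hη hdvd hn K L d s M N y f g c v A hd HM hgc D hD 𝒞 B r ψ hP G E hG hgen hsub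
      hdisc ⟨ε, hε, hlc⟩ (fun a h1 h2 h3 => le_trans (min_le_right _ _) (h4 a h1 h2 h3)) b S N₀ HL

end Vale.Agent.P283.H646L
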