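import Vale.Agent.P283.H108.DefsEps
import Vale.Agent.P283.H108.LocPsi
import Vale.Agent.P283.H646L.CorrX

/-!
From log canonical complements to klt complements for pairs which are klt with toric log
discrepancies at least `ε`, or `ε`-lc.
-/

set_option linter.all false

namespace Vale.Agent.P283.H646L

open MvPolynomial Finset
open Vale.Agent.P283.Z647 Vale.Agent.P283.H108

theorem phi_eqX {d s M : ℕ} {f : MvPolynomial (Fin (d + 1)) ℂ}
    {g : Fin s → MvPolynomial (Fin (d + 1)) ℂ} {c : Fin s → ℚ} {r : ℕ}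
    {E : Fin (M + 1) → Fin (d + 1) → ℤ} (a : Fin (d + 1) → ℤ) :
    ((toricDisc f g c r E a : ℚ) : ℝ) = ∑ j, (a j : ℝ) - minWt f a - Phi g c r E a := by
  unfold toricDisc Phi
  push_cast
  ring

theorem psiBound_iffX {d s M N : ℕ} {v : Fin N → Fin (d + 1) → ℤ}
    {f : MvPolynomial (Fin (d + 1)) ℂ} (hf : f ≠ 0)
    {g : Fin s → MvPolynomial (Fin (d + 1)) ℂ} {c : Fin s → ℚ} {r : ℕ}
    {E : Fin (M + 1) → Fin (d + 1) → ℤ} {ε : ℝ} :
    IsToricallyEpsLC v f g c r E ε ↔ PsiBound v f g c r E ε := by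
  constructor
  · intro h a ha hnm ha0 α hα hmin
    obtain ⟨μ, hμ, α₁, hα₁, β₁, hβ₁, hne, h1, h2⟩ := hnm
    have hm := isMinZ_minWt hf a
    have hμ' : μ = minWt f a := by
      obtain ⟨γ, hγ, hγ'⟩ := hm.1
      exact le_antisymm (by rw [← hγ']; exact hμ.2 γ hγ) (by rw [← h1]; exact hm.2 α₁ hα₁)
    have hαm : wtZ a α = minWt f a := by
      obtain ⟨γ, hγ, hγ'⟩ := hm.1
      exact le_antisymm (by rw [← hγ']; exact hmin γ hγ) (hm.2 α hα)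
    have h3 := h a ha ha0 (by
      refine ⟨α₁, ?_, β₁, ?_, hne⟩
      · rw [Finset.mem_coe, mem_support_iff, coeff_inFormZ hm, if_pos (by rw [h1, hμ'])]
        exact mem_support_iff.1 hα₁
      · rw [Finset.mem_coe, mem_support_iff, coeff_inFormZ hm, if_pos (by rw [h2, hμ'])]
        exact mem_support_iff.1 hβ₁)
    rw [phi_eqX] at h3
    rw [hαm]; exact h3
  · intro h a ha ha0 hnt
    have hm := isMinZ_minWt hf a
    obtain ⟨α, hα, β, hβ, hne⟩ := hnt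
    have key : ∀ γ : Fin (d + 1) →₀ ℕ, γ ∈ ((inFormZ f a).support : Set _) →
        wtZ a γ = minWt f a ∧ γ ∈ f.support := by
      intro γ hγ
      rw [Finset.mem_coe, mem_support_iff, coeff_inFormZ hm] at hγ
      by_cases h1 : wtZ a γ = minWt f a
      · rw [if_pos h1] at hγ
        exact ⟨h1, mem_support_iff.2 hγ⟩
      · rw [if_neg h1] at hγ
        exact absurd rfl hγ
    obtain ⟨h1, h2⟩ := key α hα
    obtain ⟨h3, h4⟩ := key β hβ
    have h5 := h a ha ⟨minWt f a, hm, α, h2, β, h4, hne, h1, h3⟩ ha0 α h2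
      (fun γ hγ => by rw [h1]; exact hm.2 γ hγ)
    rw [phi_eqX, ← h1]; exact h5

theorem psi_monoX {m s M N : ℕ} {v : Fin N → Fin m → ℤ} {f : MvPolynomial (Fin m) ℂ}
    {g : Fin s → MvPolynomial (Fin m) ℂ} {c : Fin s → ℚ} {r : ℕ} {E : Fin (M + 1) → Fin m → ℤ}
    {ε ε' : ℝ} (h : PsiBound v f g c r E ε) (hε : ε' ≤ ε) : PsiBound v f g c r E ε' :=
  fun A hA hnm hA0 α hα hmin => le_trans hε (h A hA hnm hA0 α hα hmin)

theorem coreFinalX (d : ℕ) (hd : 0 < d) (J q : ℕ) (hq : 0 < q) (ε : ℝ) (hε : 0 < ε) :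
    ∃ c₀ : ℕ, 0 < c₀ ∧ ∀ (η : ℝ) (n : ℕ), 0 < η → c₀ ∣ n → (c₀ : ℝ) * (1 + 1 / η) ≤ n →
    ∀ (K L : Type) [Field K] [Field L] [Algebra ℂ K] [Algebra ℂ L] [Algebra K L]
      [IsScalarTower ℂ K L] (s M N : ℕ) (y : Fin (d + 1) → L) (f : MvPolynomial (Fin (d + 1)) ℂ)
      (g : Fin s → MvPolynomial (Fin (d + 1)) ℂ) (c : Fin s → ℚ) (v : Fin N → Fin (d + 1) → ℤ)
      (A : Subalgebra ℂ K), IsCommonCover J y f g v A →
      (∀ i, 0 ≤ c i ∧ ∃ z : ℤ, (q : ℚ) * c i = z) →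
    ∀ D : Fin d → Derivation ℂ K K, (∃ z, Q.jac D z ≠ 0) →
    ∀ (𝒞 : Set (Subalgebra ℂ K)) (B : ∀ C : Subalgebra ℂ K, Q.QDivisor C) (r : ℕ)
      (ψ : Subalgebra ℂ K → K), H207.IsPair D A 𝒞 B r ψ →
    ∀ (E : Fin (M + 1) → Fin (d + 1) → ℤ), IsGeneratedM y f g c E D 𝒞 r ψ →
      IsSubdivision v E →
      (∀ j, toricDisc f g c r E (v j) ≤ 1) →
      ((∃ δ : ℝ, 0 < δ ∧ ∀ C ∈ 𝒞, Q.IsEpsLC D (B C) δ) ∧ IsToricallyEpsLC v f g c r E ε ∨
        (∀ C ∈ 𝒞, Q.IsEpsLC D (B C) ε) ∧ IsFiniteOverToric J y v A) →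
    ∀ (b : K) (t : ℕ) (σ : Fin t → L), IsRegularOver d y A b σ →
    ∀ (S : MvPolynomial (Fin (d + 1)) ℂ) (N₀ : Fin (d + 1) → ℤ),
      IsLcComplementOn y f g c v r E q η σ S N₀ → HasKltComplementOn D 𝒞 B n b := by
  have hε' : 0 < min ε (min (ε / (J + 1 : ℕ)) (1 / 2)) :=
    lt_min hε (lt_min (div_pos hε (by positivity)) (by norm_num))
  obtain ⟨c₀, hc₀, hmain⟩ := coreCX d hd J q hq _ hε'
  refine ⟨c₀, hc₀, ?_⟩
  intro η n hη hdvd hn K L _ _ _ _ _ _ s M N y f g c v A H hc D hD 𝒞 B r ψ hP E hgen hsub hdisc hor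
    b t σ HU S N₀ HLC
  rcases hor with ⟨hklt, htor⟩ | ⟨hlc, hJ, hcover⟩
  · exact hmain η n hη hdvd hn K L s M N y f g c v A H hc D hD 𝒞 B r ψ hP E hgen hsub hdisc hklt
      (psi_monoX ((psiBound_iffX H.nonzero).1 htor) (min_le_left _ _)) b t σ HU S N₀ HLC
  · haveI := H.finite
    have h1 := psi_of_eps (J := J + 1) ⟨H.finiteDim, H.equation, H.nonzero, H.coordinate⟩
      H.divisor (fun i => (hc i).1) hcover (by omega) hP hgen hd hD hε hlc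
    exact hmain η n hη hdvd hn K L s M N y f g c v A H hc D hD 𝒞 B r ψ hP E hgen hsub hdisc
      ⟨ε, hε, hlc⟩ (psi_monoX h1 (min_le_right _ _)) b t σ HU S N₀ HLC

end Vale.Agent.P283.H646L
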