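import Vale.Agent.P283.H646.Main
import Vale.Agent.P283.H646L.CoordsL
import Vale.Agent.P283.H646L.DefsL

/-!
P283: from log canonical complements to klt complements on the quotients of affine space.
-/

set_option linter.all false

namespace Vale.Agent.P283.H646L

open scoped KaehlerDifferential
open MvPolynomial Finset Vale.Agent.P283 Vale.Agent.P283.Q.H646 Vale.Agent.P283.Q.H646L
open Vale.Agent.P283.H646 (StrongComplF crepant_oldF concl_of_strong goodPts rY_nonneg logForm_iff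
  quot_inv)

theorem core_L (k : ℕ) (hd : 0 < 0 + k) (J : ℕ) : ∃ c₀ : ℕ, 0 < c₀ ∧
    ∀ ε : ℝ, 0 < ε → ∀ η : ℝ, 0 < η → ∀ N' Q₀ : ℕ, 0 < Q₀ →
      (c₀ : ℝ) * (1 + 1 / (Q₀ * (η * ε))) ≤ N' →
    ∀ (K L : Type) [Field K] [Field L] [Algebra ℂ K] [Algebra ℂ L]
      [Algebra K L] [IsScalarTower ℂ K L] (x : Fin (0 + 1) → L) (z : Fin k → L)
      (g : MvPolynomial (Fin k) ℂ) (b : Fin k → ℚ) (G : Subgroup (L ≃ₐ[ℂ] L))
      (A : Subalgebra ℂ K), Q.IsQuotient x z g b G A →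
    ∀ (G0 : Subgroup (L ≃ₐ[ℂ] L)) (v : Fin k → (Fin k → ℂ)), G0 ≤ G → G0.relIndex G ≤ J →
      LinearIndependent ℂ v → (∀ j, b j ≠ 0 → v j = Pi.single j 1) →
      (∀ τ ∈ G0, ∀ i, ∃ c : ℂ, τ (x i) = c • x i) →
      (∀ τ ∈ G0, ∀ j, ∃ c : ℂ, τ (Abs.lin z (v j)) = c • Abs.lin z (v j)) →
    ∀ (M : Finset (Fin k → ℤ)) (f E : L), (∀ τ ∈ G, ∃ c : ℂ, τ f = c • f) →
      E ∈ Abs.rY x z → E ≠ 0 →
      LData k (Abs.nT x z v) (x 0) G0 (fun j => 1 - b j) Q₀ η M f E →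
    ∀ D : Fin (0 + k) → Derivation ℂ K K, (∃ f, Q.jac D f ≠ 0) →
    ∀ B : Q.QDivisor A, (∀ p, 0 ≤ B.coeff p) → Q.H646.IsCrepantF x z b f Q₀ A D B →
      Q.IsEpsLC D B ε → ∀ S : Set (Ideal A), S ⊆ goodPts x z G A E →
      Q.H646.HasKltComplementOver D B (N' * Q₀ * J.factorial) S := by
  obtain ⟨c₀, hc₀, hmain⟩ := result_coords k hd J
  refine ⟨c₀, hc₀, ?_⟩
  intro ε hε η hη N' Q₀ hQ₀ hN K L _ _ _ _ _ _ x z g b G A H G0 v hle hidx hv hvb hdiag0 hdiag M f E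
    hfG hEmem hE0 hFD D hD B hB hcr hlc S hS
  have hcoords := isCoords_of_quotient H
  have halg : Algebra.IsAlgebraic K L := isAlgebraic_of_quotient H
  have htr : Algebra.trdeg ℂ L = ((0 + k : ℕ) : Cardinal) := by
    rw [hcoords.trdeg_eq]; simp only [Fintype.card_sum, Fintype.card_fin, Nat.cast_add]
  obtain ⟨b0, hb0, hb0'⟩ := exists_common_basis (K := K) (L := L) htr
  obtain ⟨BK, hBK⟩ := exists_kaehler_basis b0 hb0
  obtain ⟨BL, hBL⟩ := exists_kaehler_basis _ hb0'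
  obtain ⟨-, hω, hDω⟩ := wedgeD_eq_jac BK hBK D hD
  have hx : ∀ l, Fin.tail x l ≠ 0 := fun l => hcoords.ne_zero (Sum.inl l)
  have hz : ∀ j, z j ≠ 0 := fun j => hcoords.ne_zero (Sum.inr j)
  have hfG' : ∀ τ ∈ G, ∃ κ : ℂ, τ f = algebraMap ℂ L κ * f := by
    intro τ hτ
    obtain ⟨c, hc⟩ := hfG τ hτ
    exact ⟨c, by rw [hc, Algebra.smul_def]⟩
  exact concl_of_strong H hω hDω hB hEmem hE0 (hmain ε hε η hη N' Q₀ hQ₀ hN K L x z g b G A H G0 v hle
    hidx hv hvb hdiag0 hdiag M f E hfG' hFD _ hω (toOld B)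
    (crepant_oldF x z b f Q₀ hx hz hFD.f_ne BK hBK BL hBL hω hDω hcr)
    (epsLC_old hω hDω hlc)) S hS

/-- The theorem of Bertini type, with a cast. -/
theorem bert_cast {k n : ℕ} (hnk : n = k) (hk : 0 < k) {L : Type} [Field L] [Algebra ℂ L]
    {z : Fin k → L} (hz : ∀ j, z j ≠ 0) (ind : AlgebraicIndependent ℂ z)
    (gen : ∀ f : L, ∃ p r : MvPolynomial (Fin k) ℂ, r ≠ 0 ∧ f = aeval z p / aeval z r)
    {P E : MvPolynomial (Fin k) ℂ} (hP : P ≠ 0) (hE : E ≠ 0)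
    {D' : Fin n → Derivation ℂ L L} (hD' : Q.jac D' (z ∘ Fin.cast hnk) = ∏ j, z j) (q : ℕ)
    {M : Finset (Fin k → ℤ)} (hM : M.Nonempty)
    (hlc : ∀ (w : AddValuation L (WithTop ℤ)) (m : ℤ), Q.IsDivisorial n w →
      (∀ j, 0 ≤ w (z j)) → w (aeval z E) = 0 → Q.FormOrder w D' m →
      ∃ μ ∈ M, ov w (aeval z P) ≤ q * (1 + m) + ∑ j, μ j * ov w (z j))
    {Ee : Finset (Fin k → ℤ)} (hEe : Ee.Nonempty) :
    ∃ c : (Fin k → ℤ) → ℂ, (∑ γ ∈ Ee, c γ • ∏ j, z j ^ γ j) ≠ 0 ∧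
      ∀ (w : AddValuation L (WithTop ℤ)) (m : ℤ), Q.IsDivisorial n w →
        (∀ j, 0 ≤ w (z j)) → w (aeval z E) = 0 → Q.FormOrder w D' m →
        ∃ γ₀ ∈ Ee, (∀ γ ∈ Ee, ∑ j, γ₀ j * ov w (z j) ≤ ∑ j, γ j * ov w (z j)) ∧
          ∑ j, γ₀ j * ov w (z j) ≤ ov w (∑ γ ∈ Ee, c γ • ∏ j, z j ^ γ j) ∧
          ov w (aeval z P) + q * (ov w (∑ γ ∈ Ee, c γ • ∏ j, z j ^ γ j) -
            ∑ j, γ₀ j * ov w (z j)) ≤
            q * (1 + m) + maxP M (fun j => ov w (z j)) := by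
  subst hnk
  exact bert_n hk hz ind gen hP hE (by simpa using hD') q hM hlc hEe

/-- The functions on `Y` are polynomials in the `z_j`. -/
theorem exists_poly {k : ℕ} {K L : Type} [Field K] [Field L] [Algebra ℂ K] [Algebra ℂ L]
    [Algebra K L] {x : Fin (0 + 1) → L} {z : Fin k → L} {g : MvPolynomial (Fin k) ℂ}
    {b : Fin k → ℚ} {G : Subgroup (L ≃ₐ[ℂ] L)} {A : Subalgebra ℂ K}
    (H : Q.IsQuotient x z g b G A) {y : L} (hy : y ∈ Abs.rY x z) :
    ∃ P : MvPolynomial (Fin k) ℂ, aeval z P = y := by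
  have h0 : x 0 = aeval z g := by
    have h1 := Abs.x0_mul H
    rw [Fin.prod_univ_zero, mul_one] at h1
    exact h1
  unfold Abs.rY at hy
  induction hy using Algebra.adjoin_induction with
  | mem y hy =>
    rcases hy with ⟨i, rfl⟩ | ⟨j, rfl⟩
    · refine ⟨g, ?_⟩
      rw [← h0]
      congr 1
      exact (Subsingleton.elim (α := Fin 1) _ _)
    · exact ⟨X j, by rw [aeval_X]⟩
  | algebraMap r => exact ⟨C r, by rw [aeval_C]⟩
  | add y z _ _ hy hz =>
    obtain ⟨P, rfl⟩ := hy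
    obtain ⟨R, rfl⟩ := hz
    exact ⟨P + R, map_add _ _ _⟩
  | mul y z _ _ hy hz =>
    obtain ⟨P, rfl⟩ := hy
    obtain ⟨R, rfl⟩ := hz
    exact ⟨P * R, map_mul _ _ _⟩

theorem main_L (d J : ℕ) (hd : 0 < d) : ∃ c : ℕ, 0 < c ∧
    ∀ ε : ℝ, 0 < ε → ∀ η : ℝ, 0 < η → ∀ Q₀ n : ℕ, 0 < Q₀ → c * Q₀ ∣ n →
      (c : ℝ) * (Q₀ + 1 / (η * ε)) ≤ n →
    ∀ (K L : Type) [Field K] [Field L] [Algebra ℂ K] [Algebra ℂ L]
      [Algebra K L] [IsScalarTower ℂ K L] (x : Fin (0 + 1) → L) (z : Fin d → L)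
      (g : MvPolynomial (Fin d) ℂ) (b : Fin d → ℚ) (f : L) (G : Subgroup (L ≃ₐ[ℂ] L))
      (A : Subalgebra ℂ K) (D : Fin (0 + d) → Derivation ℂ K K) (B : Q.QDivisor A),
      IsPairF x z g b f Q₀ G A D B ε →
    ∀ (G₀ : Subgroup (L ≃ₐ[ℂ] L)) (s : MvPolynomial (Fin d) ℂ) (N : Fin d → ℕ) (E : L),
      IsLcComplement x z b f J Q₀ η G G₀ s N E →
      HasKltComplementOver D B n (orbitPoints x z G A E) := by
  classical
  have hd' : 0 < 0 + d := by omega
  obtain ⟨c₀, hc₀, hcore⟩ := core_L d hd' J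
  refine ⟨c₀ * J.factorial, Nat.mul_pos hc₀ J.factorial_pos, ?_⟩
  intro ε hε η hη Q₀ n hQ₀ hdvd hn K L _ _ _ _ _ _ x z g b f G A D B HP G₀ s N E HL
  obtain ⟨N₁, rfl⟩ := hdvd
  have hcR : (0 : ℝ) < (c₀ * J.factorial : ℕ) := by
    exact_mod_cast Nat.mul_pos hc₀ J.factorial_pos
  have hQR : (0 : ℝ) < Q₀ := by exact_mod_cast hQ₀
  have hηε : (0 : ℝ) < η * ε := mul_pos hη hε
  have hN₁ : 1 + 1 / (Q₀ * (η * ε)) ≤ N₁ := by
    have h1 : ((c₀ * J.factorial : ℕ) : ℝ) * (Q₀ * (1 + 1 / (Q₀ * (η * ε)))) ≤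
        ((c₀ * J.factorial : ℕ) : ℝ) * (Q₀ * N₁) := by
      have h2 : (Q₀ : ℝ) * (1 + 1 / (Q₀ * (η * ε))) = Q₀ + 1 / (η * ε) := by
        field_simp
      rw [h2]
      refine hn.trans (le_of_eq ?_)
      push_cast; ring
    exact le_of_mul_le_mul_left (le_of_mul_le_mul_left h1 hcR) hQR
  have hN : (c₀ : ℝ) * (1 + 1 / (Q₀ * (η * ε))) ≤ ((c₀ * N₁ : ℕ) : ℝ) := by
    push_cast
    exact mul_le_mul_of_nonneg_left hN₁ (Nat.cast_nonneg _)
  have hnn : c₀ * J.factorial * Q₀ * N₁ = c₀ * N₁ * Q₀ * J.factorial := by ring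
  rw [hnn]
  have H := HP.quotient
  have hlin : ∀ j, Abs.lin z (Pi.single j 1 : Fin d → ℂ) = z j := fun j => Abs.lin_single z j
  have hnT : Abs.nT x z (fun j => Pi.single j 1) = Abs.cT x z := by
    funext i
    rcases i with l | j
    · rfl
    · exact hlin j
  have hcoords : IsCoords (Abs.cT x z) := Abs.coords H
  have hzj : ∀ j, z j ≠ 0 := fun j => hcoords.ne_zero (Sum.inr j)
  have hind : AlgebraicIndependent ℂ z := hcoords.ind.comp Sum.inr Sum.inr_injective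
  have hgen : ∀ f : L, ∃ p r : MvPolynomial (Fin d) ℂ, r ≠ 0 ∧ f = aeval z p / aeval z r := by
    intro f
    obtain ⟨p, r, hr, h⟩ := hcoords.gen f
    let e : Fin 0 ⊕ Fin d → MvPolynomial (Fin d) ℂ := Sum.elim (fun l => l.elim0) X
    have hcomp : ∀ p : MvPolynomial (Fin 0 ⊕ Fin d) ℂ,
        aeval z (aeval e p) = aeval (Abs.cT x z) p := by
      intro p
      have h1 : ((aeval z).comp (aeval e) : MvPolynomial (Fin 0 ⊕ Fin d) ℂ →ₐ[ℂ] L) =
          aeval (Abs.cT x z) := by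
        apply MvPolynomial.algHom_ext
        rintro (l | j)
        · exact l.elim0
        · rw [AlgHom.comp_apply, aeval_X, aeval_X]
          simp only [e, Sum.elim_inr, aeval_X]
          rfl
      rw [← h1, AlgHom.comp_apply]
    refine ⟨aeval e p, aeval e r, ?_, ?_⟩
    · intro h0
      have h1 := hcomp r
      rw [h0, map_zero] at h1
      exact hcoords.aeval_ne_zero hr h1.symm
    · rw [hcomp, hcomp]; exact h
  obtain ⟨P, hP⟩ := exists_poly H HP.mem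
  obtain ⟨PE, hPE⟩ := exists_poly H HL.mem
  have hP0 : P ≠ 0 := by
    rintro rfl
    rw [map_zero] at hP
    exact HP.ne_zero hP.symm
  have hPE0 : PE ≠ 0 := by
    rintro rfl
    rw [map_zero] at hPE
    exact HL.ne_zero hPE.symm
  have hx0 : x 0 ∈ Abs.rY x z := Abs.x_mem x z 0
  obtain ⟨Px, hPx⟩ := exists_poly H hx0
  have hs0 : aeval z s ≠ 0 := fun h => HL.s_ne_zero (hind (by rw [h, map_zero]))
  have hxnn : ∀ w : AddValuation L (WithTop ℤ), (∀ c : ℂ, c ≠ 0 → w (algebraMap ℂ L c) = 0) →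
      (∀ j, 0 ≤ w (z j)) → ∀ i, 0 ≤ w (x i) := by
    intro w hc hz i
    have h1 : x i = x 0 := by
      congr 1
      exact (Subsingleton.elim (α := Fin 1) _ _)
    rw [h1, ← hPx]
    exact Vale.Agent.P283.H646.aeval_nonneg hc hz Px
  -- the exponents of the complement
  let M : Finset (Fin d → ℤ) := s.support.image fun ν => fun j => (N j : ℤ) - ν j
  have hMne : M.Nonempty := (support_nonempty.2 HL.s_ne_zero).image _
  have hLD : LData d (Abs.nT x z fun j => Pi.single j 1) (x 0) G₀ (fun j => 1 - b j) Q₀ η M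
      f E := by
    rw [hnT]
    refine ⟨HP.ne_zero, ?_, hMne, ?_, ?_, ?_⟩
    · intro w hconst h1 h0
      rw [← hP]
      exact Vale.Agent.P283.H646.aeval_nonneg hconst (fun j => h1 (Sum.inr j)) P
    · intro μ hμ τ hτ
      obtain ⟨ν, hν, rfl⟩ := Finset.mem_image.1 hμ
      choose χ hχ using fun j => HL.diagonal.2 τ hτ j
      obtain ⟨c, hc⟩ := HP.semi τ (HL.le hτ)
      have hinv := HL.inv τ hτ
      have hχ0 : ∀ j, χ j ≠ 0 := by
        intro j h
        have h5 := hχ j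
        rw [h, zero_smul] at h5
        exact hzj j ((map_eq_zero τ).1 h5)
      have hc0 : c ≠ 0 := by
        intro h
        rw [h, zero_smul] at hc
        exact HP.ne_zero ((map_eq_zero τ).1 hc)
      have hzN : (∏ j, z j ^ N j) ≠ 0 := Finset.prod_ne_zero_iff.2 fun j _ => pow_ne_zero _ (hzj j)
      have hτN : τ (∏ j, z j ^ N j) = algebraMap ℂ L (∏ j, χ j ^ N j) * ∏ j, z j ^ N j := by
        rw [map_prod, map_prod, ← Finset.prod_mul_distrib]
        refine Finset.prod_congr rfl fun j _ => ?_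
        rw [map_pow, hχ j, Algebra.smul_def, mul_pow, map_pow]
      -- `s(z)` is semi-invariant
      have hsemi : τ (aeval z s) = ((∏ j, χ j ^ N j) / c) • aeval z s := by
        rw [map_div₀, map_mul, hc, hτN, Algebra.smul_def] at hinv
        have hcL : algebraMap ℂ L c ≠ 0 := (map_ne_zero _).2 hc0
        have hχL : algebraMap ℂ L (∏ j, χ j ^ N j) ≠ 0 :=
          (map_ne_zero _).2 (Finset.prod_ne_zero_iff.2 fun j _ => pow_ne_zero _ (hχ0 j))
        have hf0 := HP.ne_zero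
        rw [Algebra.smul_def, map_div₀]
        field_simp at hinv ⊢
        linear_combination hinv
      have h1 := quot_inv hind hzj hχ hsemi hν
      have h2 : f * (∏ j, Abs.cT x z (Sum.inr j) ^ ((N j : ℤ) - ν j))⁻¹ =
          (f * aeval z s / ∏ j, z j ^ N j) * (aeval z s * (∏ j, z j ^ ν j)⁻¹)⁻¹ := by
        have h3 : ∏ j, Abs.cT x z (Sum.inr j) ^ ((N j : ℤ) - ν j) =
            (∏ j, z j ^ N j) / ∏ j, z j ^ ν j := by
          rw [← Finset.prod_div_distrib]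
          refine Finset.prod_congr rfl fun j _ => ?_
          show z j ^ ((N j : ℤ) - ν j) = _
          rw [zpow_sub₀ (hzj j), zpow_natCast, zpow_natCast]
        have hzν : (∏ j, z j ^ ν j) ≠ 0 :=
          Finset.prod_ne_zero_iff.2 fun j _ => pow_ne_zero _ (hzj j)
        rw [h3]
        field_simp
      rw [h2, map_mul, map_inv₀, h1, hinv]
    · intro w hw h1 h0 hwE μ hμ j
      obtain ⟨ν, hν, rfl⟩ := Finset.mem_image.1 hμ
      have hz0 : 0 ≤ ov w (z j) := (nonneg_iff w (hzj j)).1 (h1 (Sum.inr j))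
      show (((N j : ℤ) - ν j : ℤ) : ℝ) * ov w (z j) ≤
        Q₀ * (1 - η) * ((1 - b j : ℚ) : ℝ) * ov w (z j)
      rcases HL.bound j with h2 | ⟨y, hy, hEy⟩
      · have h3 := h2 ν hν
        push_cast
        exact mul_le_mul_of_nonneg_right h3 (by exact_mod_cast hz0)
      · have h3 : ov w (z j) = 0 := by
          have hy0 : y ≠ 0 := fun h => HL.ne_zero (by rw [hEy, h, mul_zero])
          have h4 : 0 ≤ w y := rY_nonneg (x := x) (z := z) hw.const
            (hxnn w hw.const fun j => h1 (Sum.inr j)) (fun j => h1 (Sum.inr j)) hy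
          have h5 : 0 ≤ ov w y := (nonneg_iff w hy0).1 h4
          have h6 : ov w E = 0 := ov_eq_of w hwE
          rw [hEy, ov_mul w (hzj j) hy0] at h6
          omega
        rw [h3]; simp
    · intro Ee hEe
      obtain ⟨D', hD', hlog⟩ := logForm_iff hcoords
      rw [Fin.prod_univ_zero, one_mul, Fin.append_left_nil _ _ rfl] at hD'
      obtain ⟨cc, h1, h2⟩ := bert_cast (Nat.zero_add d) hd hzj hind hgen hP0 hPE0 hD' Q₀ hMne (by
        intro w m hw hz hE hm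
        rw [hPE] at hE
        have h3 := HL.lc D' (by
          rw [Fin.prod_univ_zero, one_mul, Fin.append_left_nil _ _ rfl]
          exact hD') w m (ov w (f * aeval z s)) (fun j => ov w (z j)) hw
          (hxnn w hw.const hz) hz hE hm (fun j => (coe_ov w (hzj j)).symm)
          (coe_ov w (mul_ne_zero HP.ne_zero hs0)).symm
        rw [ov_mul w HP.ne_zero hs0] at h3
        obtain ⟨⟨ν, hν, hνw⟩, -⟩ := Z647.isMinZ_minWt HL.s_ne_zero (Z647.wts w z)
        have h4 := Z647.ov_lower hw.const hzj hs0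
          (Z647.isMinZ_minWt HL.s_ne_zero (Z647.wts w z))
        rw [← hνw] at h4
        refine ⟨fun j => (N j : ℤ) - ν j, Finset.mem_image_of_mem _ hν, ?_⟩
        rw [hP]
        have h5 : ∑ j, ((N j : ℤ) - ν j) * ov w (z j) =
            ∑ j, (N j : ℤ) * ov w (z j) - Z647.wtZ (Z647.wts w z) ν := by
          unfold Z647.wtZ Z647.wts
          rw [← Finset.sum_sub_distrib]
          exact Finset.sum_congr rfl fun j _ => by ring
        rw [h5]
        linarith) hEe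
      refine ⟨cc, h1, ?_⟩
      intro w m hw h3 h0 hwE hm
      have h4 := h2 w m (divisorial_iff.2 hw) (fun j => h3 (Sum.inr j)) (by rw [hPE]; exact hwE)
        (hlog w m hm)
      rw [hP] at h4
      exact h4
  refine hcore ε hε η hη (c₀ * N₁) Q₀ hQ₀ hN K L x z g b G A H G₀ (fun j => Pi.single j 1) HL.le
    HL.index ?_ (fun j _ => rfl) HL.diagonal.1 ?_ M f E HP.semi HL.mem HL.ne_zero hLD D HP.form B
    HP.effective HP.crepant HP.epsLC _ (fun p hp => hp)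
  · exact Pi.linearIndependent_single_one (Fin d) ℂ
  · intro τ hτ j
    rw [hlin]
    exact HL.diagonal.2 τ hτ j

end Vale.Agent.P283.H646L
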