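import Vale.Agent.P283.H646L.CoreF
import Vale.Agent.P283.H646L.DefsF
import Vale.Agent.P283.H646L.FinalX

/-!
From log canonical complements to klt complements for pairs with a finite cover with a rational map
to a torus.
-/

set_option linter.all false

namespace Vale.Agent.P283.H646L

open MvPolynomial Finset
open Vale.Agent.P283.Z647 Vale.Agent.P283.H108
open Vale.Agent.P283.H647 (ResForm HypData order_exists order_unique order_transfer exists_ext
  jac_map ov_algebraMap)
open Vale.Agent.P283 (ov ov_mul ov_div ov_pow ov_prod ov_zpow coe_ov ov_eq_of nonneg_iff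
  exists_restriction exists_extension divisorial_iff isDivisorial_of_ext comap_normalized
  comap_apply' centreIdeal ne_zero_of_eq)

theorem tropDisc_smulX {m s : ℕ} {f : MvPolynomial (Fin m) ℂ} (hf : f ≠ 0)
    {g : Fin s → MvPolynomial (Fin m) ℂ} (hg : ∀ i, g i ≠ 0) (c : Fin s → ℚ) (β : ℕ)
    {a a' : Fin m → ℤ} (h : ∀ k, a k = β * a' k) :
    tropDisc f g c a = β * tropDisc f g c a' := by
  have h' : ∀ k, (β : ℤ) * a' k = a k := fun k => (h k).symm
  unfold tropDisc
  rw [minWt_smul hf a' a β h']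
  have h1 : ∑ k, (a k : ℚ) = β * ∑ k, (a' k : ℚ) := by
    rw [Finset.mul_sum]
    exact Finset.sum_congr rfl fun k _ => by rw [h k]; push_cast; ring
  have h2 : ∑ i, c i * (minWt (g i) a : ℚ) = β * ∑ i, c i * (minWt (g i) a' : ℚ) := by
    rw [Finset.mul_sum]
    refine Finset.sum_congr rfl fun i _ => ?_
    rw [minWt_smul (hg i) a' a β h']; push_cast; ring
  rw [h1, h2]
  push_cast
  ring

section Up

variable {J q d p N s M : ℕ} {K L : Type} [Field K] [Field L] [Algebra ℂ K]
  [Algebra ℂ L] [Algebra K L] [IsScalarTower ℂ K L]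
  {y : Fin (p + 1) → L} {f : MvPolynomial (Fin (p + 1)) ℂ}
  {g : Fin s → MvPolynomial (Fin (p + 1)) ℂ} {c : Fin s → ℚ} {v : Fin N → Fin (p + 1) → ℤ}
  {A : Subalgebra ℂ K} {D : Fin d → Derivation ℂ K K} {G : L}

/-- The data without a condition on the singularities. -/
theorem IsMonomialModel.toModel (H : IsMonomialModel d J y f v A) (hg : ∀ i, g i ≠ 0)
    (hG : G ≠ 0) : IsLcModelOn J q y f g c v A 0 D G where
  functionField := H.functionField
  dimension := H.dimension
  finite := H.finite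
  degree := H.degree
  coordinate := H.coordinate
  equation := H.equation
  nonzero := H.nonzero
  nonzero' := hg
  function := hG
  finiteType := H.finiteType
  monomials := H.monomials
  logCanonical := by
    intro D' _ w m l a _ _ hb
    rw [map_zero, AddValuation.map_zero] at hb
    exact absurd hb (by simp)

variable {L' : Type} [Field L'] [Algebra ℂ L'] [Algebra K L'] [Algebra L L']
  [IsScalarTower ℂ K L'] [IsScalarTower ℂ L L'] [IsScalarTower K L L'] [FiniteDimensional K L']

theorem modelF_up (H : IsMonomialModel d J y f v A) :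
    IsMonomialModel d (Module.finrank K L') (fun k => algebraMap L L' (y k)) f v A where
  functionField := H.functionField
  dimension := H.dimension
  finite := inferInstance
  degree := le_rfl
  coordinate := fun k => (map_ne_zero _).2 (H.coordinate k)
  equation := by rw [aeval_map, H.equation, map_zero]
  nonzero := H.nonzero
  finiteType := H.finiteType
  monomials := by
    intro u hu
    have h1 := H.monomials u hu
    have h2 : (∏ k, algebraMap L L' (y k) ^ u k) = algebraMap L L' (∏ k, y k ^ u k) := by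
      rw [map_prod]
      exact Finset.prod_congr rfl fun k _ => by rw [map_zpow₀]
    rw [h2]
    refine IsIntegral.map_of_comp_eq (RingHom.id A) (algebraMap L L') ?_ h1
    ext x
    exact IsScalarTower.algebraMap_apply K L L' (x : K)

/-- Log canonical complements pass to finite extensions. -/
theorem lccG_up (hd : 0 < d) (hq : 0 < q) (hD : ∃ z, Q.jac D z ≠ 0)
    (H : IsLcModelOn J q y f g c v A 0 D G) {b : K} {r : ℕ} {η : ℝ}
    {E : Fin (M + 1) → Fin (p + 1) → ℤ} {S : MvPolynomial (Fin (p + 1)) ℂ}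
    {N₀ : Fin (p + 1) → ℤ} (h : IsLcComplementG y f g c v A b D G r E q η S N₀) :
    IsLcComplementG (fun k => algebraMap L L' (y k)) f g c v A b D (algebraMap L L' G) r E q η
      S N₀ := by
  haveI := H.finite
  haveI : FiniteDimensional L L' := FiniteDimensional.right K L L'
  haveI : Algebra.IsAlgebraic K L := Algebra.IsAlgebraic.of_finite K L
  haveI : Algebra.IsAlgebraic L L' := Algebra.IsAlgebraic.of_finite L L'
  haveI : Algebra.IsAlgebraic K L' := Algebra.IsAlgebraic.of_finite K L'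
  haveI := H.functionField
  haveI := H.ess
  haveI : Algebra.EssFiniteType ℂ L' := Algebra.EssFiniteType.comp ℂ K L'
  have htrL' : Algebra.trdeg ℂ L' = (d : ℕ) := by
    rw [← gen_trdeg (inferInstance : Algebra.IsAlgebraic K L')]
    exact H.dimension
  refine ⟨by rw [aeval_map]; exact (map_ne_zero _).2 h.ne_zero, ?_, h.large⟩
  intro D'' hD'' w' m' l l' a hw' hA hb hm' hl ha hl'
  obtain ⟨D₁, hD₁⟩ := exists_ext (K := K) (L := L) H.trdegL D
  obtain ⟨D₂, hD₂⟩ := exists_ext (K := L) (L := L') htrL' D₁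
  have hD₂'' : D'' = D₂ := by
    funext i
    refine O647.f5 K L' (D'' i) (D₂ i) fun x => ?_
    rw [hD'', IsScalarTower.algebraMap_apply K L L' x, hD₂, hD₁,
      ← IsScalarTower.algebraMap_apply]
  subst hD₂''
  have hj₁ : ∃ z, Q.jac D₁ z ≠ 0 := by
    obtain ⟨z, hz⟩ := hD
    exact ⟨_, by rw [jac_map hD₁]; exact (map_ne_zero _).2 hz⟩
  obtain ⟨w, e, he, hw₀, hww⟩ := exists_restriction (K := L) d w' (divisorial_iff.1 hw')
  have hw : Q.IsDivisorial d w := divisorial_iff.2 hw₀
  obtain ⟨m₀, hm₀⟩ := order_exists hd H.trdegL D₁ hj₁ hw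
  have htr := order_transfer hd H.trdegL htrL' hj₁ hD₂ hw hw'.normalized he hww hm₀ hm'
  have hA₀ : ∀ z ∈ A, 0 ≤ w (algebraMap K L z) := by
    intro z hz
    have h1 := hA z hz
    rw [IsScalarTower.algebraMap_apply K L L', hww] at h1
    exact nonneg_of_nsmul he h1
  have hb₀ : w (algebraMap K L b) = 0 := by
    rw [IsScalarTower.algebraMap_apply K L L', hww] at hb
    exact zero_of_nsmul he hb
  have h1 := h.lc D₁ hD₁ w m₀ (ov w G) (ov w (aeval y S)) (fun k => ov w (y k)) hw hA₀ hb₀ hm₀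
    (coe_ov w H.function).symm (fun k => (coe_ov w (H.coordinate k)).symm)
    (coe_ov w h.ne_zero).symm
  have ha' : ∀ k, a k = e * ov w (y k) := by
    intro k
    rw [← ov_algebraMap hww (H.coordinate k)]
    exact (ov_eq_of w' (ha k)).symm
  have hlG : l = e * ov w G := by
    rw [← ov_algebraMap hww H.function]
    exact (ov_eq_of w' hl).symm
  have hlS : l' = e * ov w (aeval y S) := by
    rw [← ov_algebraMap hww h.ne_zero, ← aeval_map]
    exact (ov_eq_of w' hl').symm
  have heQ : (0 : ℚ) ≤ e := Nat.cast_nonneg e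
  have h2 := mul_nonneg heQ h1
  have h5 : ∑ k, N₀ k * a k = e * ∑ k, N₀ k * ov w (y k) := by
    rw [Finset.mul_sum]
    exact Finset.sum_congr rfl fun k _ => by rw [ha' k]; ring
  have h4 : (1 : ℚ) + m' = e * (1 + m₀) := by exact_mod_cast htr
  rw [h5, h4, hlG, hlS]
  refine le_trans h2 (le_of_eq ?_)
  push_cast
  ring

/-- Monomial ideals in a larger field. -/
theorem gen_upF (H : IsLcModelOn J q y f g c v A 0 D G) {E : Fin (M + 1) → Fin (p + 1) → ℤ}
    {𝒞 : Set (Subalgebra ℂ K)} {r : ℕ} {ψ : Subalgebra ℂ K → K}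
    (hgen : IsGeneratedG d q y G E 𝒞 r ψ) :
    IsGeneratedG d q (fun k => algebraMap L L' (y k)) (algebraMap L L' G) E 𝒞 r ψ := by
  haveI := H.finite
  haveI : FiniteDimensional L L' := FiniteDimensional.right K L L'
  haveI : Algebra.IsAlgebraic K L := Algebra.IsAlgebraic.of_finite K L
  haveI : Algebra.IsAlgebraic L L' := Algebra.IsAlgebraic.of_finite L L'
  haveI : Algebra.IsAlgebraic K L' := Algebra.IsAlgebraic.of_finite K L'
  intro C hC u w' e' l b' α' hu hover he' hw'1 hw'u hl hb' hα'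
  -- the valuation on `L`
  have hw'div : IsDivisorial d w' :=
    isDivisorial_of_ext (divisorial_iff.1 hu) hw'1 hw'u
  obtain ⟨w, e'', he'', hw, hw'w⟩ := exists_restriction (K := L) d w' hw'div
  obtain ⟨x₁, hx₁⟩ := hu.normalized
  have hx₁0 : x₁ ≠ 0 := ne_zero_of_eq u (n := 1) (by simpa using hx₁)
  have hcomp : ∀ x : K, e'' • w (algebraMap K L x) = e' • u x := by
    intro x
    rw [← hw'w, ← IsScalarTower.algebraMap_apply, hw'u]
  have hcomp' : ∀ x : K, x ≠ 0 → (e'' : ℤ) * ov w (algebraMap K L x) = e' * ov u x := by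
    intro x hx
    have h6 := hcomp x
    rw [← coe_ov w ((map_ne_zero (algebraMap K L)).2 hx), ← coe_ov u hx, ← WithTop.coe_nsmul,
      ← WithTop.coe_nsmul, WithTop.coe_inj, nsmul_eq_mul, nsmul_eq_mul] at h6
    exact h6
  have hux₁ : ov u x₁ = 1 := ov_eq_of u (by simpa using hx₁)
  have h7 := hcomp' x₁ hx₁0
  rw [hux₁, mul_one] at h7
  have he''Z : (0 : ℤ) < e'' := by exact_mod_cast he''
  have he'Z : (0 : ℤ) < e' := by exact_mod_cast he'
  have h8 : 0 < ov w (algebraMap K L x₁) := by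
    by_contra hneg
    push Not at hneg
    have := mul_nonpos_of_nonneg_of_nonpos he''Z.le hneg
    omega
  obtain ⟨e, he⟩ := Int.eq_ofNat_of_zero_le h8.le
  rw [he] at h7 h8
  have he0 : 0 < e := by exact_mod_cast h8
  have hwu : ∀ x : K, w (algebraMap K L x) = e • u x := by
    intro x
    by_cases hx : x = 0
    · subst hx
      obtain ⟨m, rfl⟩ := Nat.exists_eq_succ_of_ne_zero he0.ne'
      rw [map_zero, AddValuation.map_zero, AddValuation.map_zero, succ_nsmul, WithTop.add_top]
    · rw [← coe_ov w ((map_ne_zero (algebraMap K L)).2 hx), ← coe_ov u hx, ← WithTop.coe_nsmul,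
        WithTop.coe_inj, nsmul_eq_mul]
      have h9 := hcomp' x hx
      rw [← h7, mul_assoc] at h9
      exact mul_left_cancel₀ he''Z.ne' h9
  have hfin := hgen C hC u w e l (ov w G) (fun k => ov w (y k)) hu hover he0 hw.normalized hwu hl
    (coe_ov w H.function).symm (fun k => (coe_ov w (H.coordinate k)).symm)
  have hb : (b' : ℤ) = e'' * ov w G := by
    rw [← ov_algebraMap hw'w H.function]
    exact (ov_eq_of w' hb').symm
  have hα : ∀ k, (e'' : ℤ) * ov w (y k) = α' k := by
    intro k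
    rw [← ov_algebraMap hw'w (H.coordinate k)]
    exact ov_eq_of w' (hα' k)
  have h11 := ordMono_smul E (fun k => ov w (y k)) α' e'' hα
  have h13 : (e' : ℚ) = e'' * e := by
    have : (e' : ℤ) = e'' * e := h7.symm
    exact_mod_cast this
  rw [h11, hb, h13]
  push_cast
  calc (e'' : ℚ) * e * l = e'' * (e * l) := by ring
    _ = _ := by rw [hfin]; ring

/-- The condition of the theorem of Bertini type. -/
theorem bert_condF (hq : 0 < q) (H : IsLcModelOn J q y f g c v A 0 D G) {b : K} {r : ℕ} {η : ℝ}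
    {E : Fin (M + 1) → Fin (p + 1) → ℤ} {S₀ : MvPolynomial (Fin (p + 1)) ℂ}
    {N₀ : Fin (p + 1) → ℤ} (HL : IsLcComplementG y f g c v A b D G r E q η S₀ N₀)
    (D' : Fin d → Derivation ℂ L L)
    (hD' : ∀ (i : Fin d) (z : K), D' i (algebraMap K L z) = algebraMap K L (D i z))
    (w : AddValuation L (WithTop ℤ)) (m : ℤ) (hw : Q.IsDivisorial d w)
    (hA : ∀ z ∈ A, 0 ≤ w (algebraMap K L z)) (hb : w (algebraMap K L b) = 0)
    (hm : Q.FormOrder w D' m) : ov w G ≤ q * (1 + m) +
      maxP (S₀.support.image fun ν => fun j => N₀ j - (ν j : ℤ)) (wts w y) := by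
  classical
  have hqQ : (0 : ℚ) < q := by exact_mod_cast hq
  have hS₀ : S₀ ≠ 0 := by
    intro h0
    exact HL.ne_zero (by rw [h0, map_zero])
  have h1 := HL.lc D' hD' w m (ov w G) (ov w (aeval y S₀)) (wts w y) hw hA hb hm
    (coe_ov w H.function).symm (fun k => (coe_ov w (H.coordinate k)).symm)
    (coe_ov w HL.ne_zero).symm
  obtain ⟨ν, hν, hνw⟩ := (isMinZ_minWt hS₀ (wts w y)).1
  have h4 := ov_lower hw.const H.coordinate HL.ne_zero (isMinZ_minWt hS₀ (wts w y))
  rw [← hνw] at h4
  have h5 := le_maxP (Finset.mem_image_of_mem (fun ν => fun j => N₀ j - (ν j : ℤ)) hν) (wts w y)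
  have h6 : ∑ j, (N₀ j - (ν j : ℤ)) * wts w y j =
      ∑ j, N₀ j * wts w y j - wtZ (wts w y) ν := by
    unfold wtZ
    rw [← Finset.sum_sub_distrib]
    exact Finset.sum_congr rfl fun j _ => by ring
  rw [h6] at h5
  have h7 := mul_nonneg hqQ.le h1
  have h8 : (q : ℚ) * (1 + m -
      ((ov w G + ov w (aeval y S₀) - ∑ k, N₀ k * wts w y k : ℤ) : ℚ) / q) =
      q * (1 + m) - ((ov w G + ov w (aeval y S₀) - ∑ k, N₀ k * wts w y k : ℤ) : ℚ) := by
    field_simp
  rw [h8] at h7
  have h9 : 0 ≤ (q : ℤ) * (1 + m) -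
      (ov w G + ov w (aeval y S₀) - ∑ k, N₀ k * wts w y k) := by exact_mod_cast h7
  linarith

/-- The toric log discrepancies of an `ε`-lc pair. -/
theorem toric_of_placesX (H : IsLcModelOn J q y f g c v A 0 D G) (hd : 0 < d)
    (hD : ∃ z, Q.jac D z ≠ 0) {𝒞 : Set (Subalgebra ℂ K)}
    {B : ∀ C : Subalgebra ℂ K, Q.QDivisor C} {r : ℕ} {ψ : Subalgebra ℂ K → K}
    (hP : H207.IsPair D A 𝒞 B r ψ) {E : Fin (M + 1) → Fin (p + 1) → ℤ}
    (hgen : IsGeneratedG d q y G E 𝒞 r ψ) {ε : ℝ} (hε : 0 < ε)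
    (hlc : ∀ C ∈ 𝒞, Q.IsEpsLC D (B C) ε) (hpl : HasLcPlaces J q y f g c v A D G) :
    IsToricallyEpsLC v f g c r E (ε / (J + 1 : ℕ)) := by
  intro a ha ha0 hnt
  obtain ⟨k, D', w, m, l, hk, hkJ, hD', hw, hA, hm, hy, hG, heq⟩ := hpl a ha ha0 hnt
  have h1 := lcG hD' hP hgen H hd hD hε hlc hw hA hm
  have h2 : ov w G = l := ov_eq_of w hG
  have h3 : wts w y = fun j => (k : ℤ) * a j := funext fun j => ov_eq_of w (hy j)
  have h4 : tropDisc f g c (fun j => (k : ℤ) * a j) = k * tropDisc f g c a :=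
    tropDisc_smulX H.nonzero H.nonzero' c k fun j => rfl
  have h5 : ordMono E (fun j => (k : ℤ) * a j) = k * ordMono E a :=
    ordMono_smul E a _ k fun j => rfl
  rw [h2, h3, h5] at h1
  rw [h4] at heq
  have h6 : ((l : ℝ) / q) = 1 + m - k * (tropDisc f g c a : ℝ) := by
    have := congrArg (Rat.cast : ℚ → ℝ) heq
    push_cast at this
    exact this
  rw [h6] at h1
  have h7 : ((toricDisc f g c r E a : ℚ) : ℝ) = (tropDisc f g c a : ℝ) - (ordMono E a : ℝ) / r := by
    unfold toricDisc tropDisc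
    push_cast
    ring
  rw [h7]
  push_cast at h1
  have hkR : (0 : ℝ) < k := by exact_mod_cast hk
  have hJR : (k : ℝ) ≤ (J + 1 : ℕ) := by exact_mod_cast hkJ.trans (Nat.le_succ J)
  have hJ0 : (0 : ℝ) < (J + 1 : ℕ) := by positivity
  have h8 : ε ≤ k * ((tropDisc f g c a : ℝ) - (ordMono E a : ℝ) / r) := by
    have : (k : ℝ) * ((tropDisc f g c a : ℝ) - (ordMono E a : ℝ) / r) =
        k * (tropDisc f g c a : ℝ) - k * (ordMono E a : ℝ) / r := by ring
    rw [this]; linarith
  rw [div_le_iff₀ hJ0]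
  have h9 : 0 < (tropDisc f g c a : ℝ) - (ordMono E a : ℝ) / r := by
    by_contra hneg
    push Not at hneg
    have := mul_nonpos_of_nonneg_of_nonpos hkR.le hneg
    linarith
  calc ε ≤ k * ((tropDisc f g c a : ℝ) - (ordMono E a : ℝ) / r) := h8
    _ ≤ (J + 1 : ℕ) * ((tropDisc f g c a : ℝ) - (ordMono E a : ℝ) / r) :=
        mul_le_mul_of_nonneg_right hJR h9.le
    _ = _ := mul_comm _ _

end Up

end Vale.Agent.P283.H646L
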